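import Vale.Agent.P216.MathlibUsed
import Vale.Agent.P216.Defs

set_option linter.all false

section

section

set_option maxSynthPendingDepth 3

open Set Filter Topology MeasureTheory
open scoped NNReal ENNReal ContDiff

namespace Vale.Agent.P216.Local

variable {E : Type*} [NormedAddCommGroup E] [NormedSpace ℝ E]
  {X : Type*} [PseudoMetricSpace X]

/-- Local data: an open set `U`, a metric tensor `G` on it, and a map `ψ` to a metric space whose
distance is infinitesimally given by `G`. -/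
structure LocalMetric (U : Set E) (G : E → E →L[ℝ] E →L[ℝ] ℝ) (ψ : E → X) : Prop where
  isOpen : IsOpen U
  smooth : ContDiffOn ℝ 2 G U
  symm : ∀ y ∈ U, ∀ v w, G y v w = G y w v
  pos : ∀ y ∈ U, ∀ v, v ≠ 0 → 0 < G y v v
  upper : ∀ y ∈ U, ∀ K : ℝ, 1 < K → ∀ᶠ p : E × E in 𝓝 (y, y),
    dist (ψ p.1) (ψ p.2) ≤ K * √(G y (p.1 - p.2) (p.1 - p.2))
  lower : ∀ y ∈ U, ∀ K : ℝ, 1 < K → ∀ᶠ p : E × E in 𝓝 (y, y),
    √(G y (p.1 - p.2) (p.1 - p.2)) ≤ K * dist (ψ p.1) (ψ p.2)

variable {U : Set E} {G : E → E →L[ℝ] E →L[ℝ] ℝ} {ψ : E → X}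

lemma bil_le (B : E →L[ℝ] E →L[ℝ] ℝ) (v w : E) : |B v w| ≤ ‖B‖ * ‖v‖ * ‖w‖ := by
  have := B.le_opNorm₂ v w
  simpa only [ge_iff_le, Real.norm_eq_abs] using this

lemma LocalMetric.coercive [FiniteDimensional ℝ E] (h : LocalMetric U G ψ) {y : E} (hy : y ∈ U) :
    ∃ m : ℝ, 0 < m ∧ ∀ v, m * ‖v‖ ^ 2 ≤ G y v v := by
  rcases subsingleton_or_nontrivial E with hE | hE
  · refine ⟨1, one_pos, fun v => ?_⟩
    have : v = 0 := Subsingleton.elim _ _
    simp [this]
  · have hcomp : IsCompact (Metric.sphere (0 : E) 1) := isCompact_sphere 0 1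
    have hne : (Metric.sphere (0 : E) 1).Nonempty := NormedSpace.sphere_nonempty.2 zero_le_one
    have hcont : Continuous fun v => G y v v := by (clear * -; fun_prop)
    obtain ⟨v₀, hv₀, hmin⟩ := hcomp.exists_isMinOn hne hcont.continuousOn
    have hv₀' : ‖v₀‖ = 1 := by simpa using hv₀
    have hv₀ne : v₀ ≠ 0 := by
      intro h0
      simp [h0] at hv₀'
    refine ⟨G y v₀ v₀, h.pos y hy v₀ hv₀ne, fun v => ?_⟩
    rcases eq_or_ne v 0 with rfl | hv
    · simp
    · have hnorm : 0 < ‖v‖ := norm_pos_iff.2 hv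
      have h1 : (‖v‖⁻¹ • v) ∈ Metric.sphere (0 : E) 1 := by
        simp only [mem_sphere_iff_norm, sub_zero, norm_smul, norm_inv, norm_norm, ne_eq, hnorm.ne', not_false_eq_true, inv_mul_cancel₀]
      have h2 := hmin h1
      simp only [map_smul, smul_apply, smul_eq_mul, mem_ofPred_eq] at h2
      have h3 : G y v v = ‖v‖ ^ 2 * (‖v‖⁻¹ * (‖v‖⁻¹ * G y v v)) := by
        field_simp
      rw [h3]
      nlinarith only [h2]

lemma LocalMetric.coercive_nhds [FiniteDimensional ℝ E] (h : LocalMetric U G ψ) {y : E}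
    (hy : y ∈ U) :
    ∃ m C : ℝ, 0 < m ∧ 0 < C ∧ ∀ᶠ z in 𝓝 y, z ∈ U ∧ ‖G z‖ ≤ C ∧ ∀ v, m * ‖v‖ ^ 2 ≤ G z v v := by
  obtain ⟨m, hm, hm'⟩ := h.coercive hy
  have hcont : ContinuousAt G y := h.smooth.continuousOn.continuousAt (h.isOpen.mem_nhds hy)
  have h1 : ∀ᶠ z in 𝓝 y, dist (G z) (G y) < m / 2 := Metric.tendsto_nhds.1 hcont _ (half_pos hm)
  refine ⟨m / 2, ‖G y‖ + m, half_pos hm, by positivity, ?_⟩
  filter_upwards [h1, h.isOpen.mem_nhds hy] with z hz hzU
  rw [dist_eq_norm] at hz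
  refine ⟨hzU, ?_, fun v => ?_⟩
  · have := norm_sub_norm_le (G z) (G y)
    linarith only [hm, hz, this]
  · have h2 := bil_le (G z - G y) v v
    have h3 : (G z - G y) v v = G z v v - G y v v := by simp
    rw [h3] at h2
    have h4 := (abs_le.1 h2).1
    have h5 : ‖G z - G y‖ * ‖v‖ * ‖v‖ ≤ m / 2 * ‖v‖ ^ 2 := by
      nlinarith only [hz]
    have := hm' v
    nlinarith only [h4, h5, this]

lemma slope_sub (x : ℝ → E) (s t : ℝ) (hs : s ≠ t) : x s - x t = (s - t) • slope x t s := by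
  rw [slope_def_module, smul_smul, mul_inv_cancel₀ (sub_ne_zero.2 hs), one_smul]

lemma sqrt_bil_smul (B : E →L[ℝ] E →L[ℝ] ℝ) (a : ℝ) (v : E) :
    √(B (a • v) (a • v)) = |a| * √(B v v) := by
  simp only [map_smul, smul_apply, smul_eq_mul]
  rw [← mul_assoc, Real.sqrt_mul (mul_self_nonneg a), Real.sqrt_mul_self_eq_abs]

/-- comparison of distances along a differentiable curve -/
lemma LocalMetric.eventually_dist_le (h : LocalMetric U G ψ) {x : ℝ → E} {t : ℝ} {x' : E}
    (hxt : x t ∈ U) (hd : HasDerivAt x x' t) {K : ℝ} (hK : 1 < K) :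
    ∀ᶠ s in 𝓝[≠] t, dist (ψ (x s)) (ψ (x t)) ≤
      K * (|s - t| * √(G (x t) (slope x t s) (slope x t s))) := by
  have hc : Tendsto (fun s => (x s, x t)) (𝓝[≠] t) (𝓝 (x t, x t)) :=
    (hd.continuousAt.tendsto.mono_left nhdsWithin_le_nhds).prodMk_nhds tendsto_const_nhds
  filter_upwards [hc.eventually (h.upper _ hxt K hK), self_mem_nhdsWithin] with s hs hst
  refine hs.trans (le_of_eq ?_)
  rw [slope_sub x s t hst, sqrt_bil_smul]

lemma LocalMetric.eventually_le_dist (h : LocalMetric U G ψ) {x : ℝ → E} {t : ℝ} {x' : E}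
    (hxt : x t ∈ U) (hd : HasDerivAt x x' t) {K : ℝ} (hK : 1 < K) :
    ∀ᶠ s in 𝓝[≠] t, |s - t| * √(G (x t) (slope x t s) (slope x t s)) ≤
      K * dist (ψ (x s)) (ψ (x t)) := by
  have hc : Tendsto (fun s => (x s, x t)) (𝓝[≠] t) (𝓝 (x t, x t)) :=
    (hd.continuousAt.tendsto.mono_left nhdsWithin_le_nhds).prodMk_nhds tendsto_const_nhds
  filter_upwards [hc.eventually (h.lower _ hxt K hK), self_mem_nhdsWithin] with s hs hst
  refine (le_of_eq ?_).trans hs
  rw [slope_sub x s t hst, sqrt_bil_smul]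

lemma tendsto_sqrt_slope {x : ℝ → E} {t : ℝ} {x' : E} (hd : HasDerivAt x x' t)
    (B : E →L[ℝ] E →L[ℝ] ℝ) :
    Tendsto (fun s => √(B (slope x t s) (slope x t s))) (𝓝[≠] t) (𝓝 (√(B x' x'))) := by
  have h1 : Tendsto (slope x t) (𝓝[≠] t) (𝓝 x') := hasDerivAt_iff_tendsto_slope.1 hd
  have h2 : Continuous fun v => √(B v v) := by fun_prop
  exact (h2.tendsto x').comp h1

lemma LocalMetric.speed (h : LocalMetric U G ψ) {x : ℝ → E} {v t : ℝ} {x' : E} (hv : 0 < v)
    (hxt : x t ∈ U)
    (hx : ∀ᶠ s in 𝓝 t, dist (ψ (x s)) (ψ (x t)) = v * |s - t|) (hd : HasDerivAt x x' t) :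
    G (x t) x' x' = v ^ 2 := by
  have hx' : ∀ᶠ s in 𝓝[≠] t, dist (ψ (x s)) (ψ (x t)) = v * |s - t| :=
    hx.filter_mono nhdsWithin_le_nhds
  have key1 : ∀ K : ℝ, 1 < K → v ≤ K * √(G (x t) x' x') := by
    intro K hK
    refine ge_of_tendsto ((tendsto_sqrt_slope hd (G (x t))).const_mul K) ?_
    filter_upwards [hx', h.eventually_dist_le hxt hd hK, self_mem_nhdsWithin] with s h1 h2 h3
    have h4 : 0 < |s - t| := abs_pos.2 (sub_ne_zero.2 h3)
    rw [h1] at h2
    have h5 : v * |s - t| ≤ (K * √(G (x t) (slope x t s) (slope x t s))) * |s - t| := by linarith only [h2]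
    exact le_of_mul_le_mul_right h5 h4
  have key2 : ∀ K : ℝ, 1 < K → √(G (x t) x' x') ≤ K * v := by
    intro K hK
    refine le_of_tendsto (tendsto_sqrt_slope hd (G (x t))) ?_
    filter_upwards [hx', h.eventually_le_dist hxt hd hK, self_mem_nhdsWithin] with s h1 h2 h3
    have h4 : 0 < |s - t| := abs_pos.2 (sub_ne_zero.2 h3)
    rw [h1] at h2
    have h5 : √(G (x t) (slope x t s) (slope x t s)) * |s - t| ≤ (K * v) * |s - t| := by linarith only [h2]
    exact le_of_mul_le_mul_right h5 h4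
  have lim : ∀ w : ℝ, Tendsto (fun K : ℝ => K * w) (𝓝[>] 1) (𝓝 w) := by
    intro w
    have : Tendsto (fun K : ℝ => K * w) (𝓝 1) (𝓝 (1 * w)) := tendsto_id.mul_const w
    rw [one_mul] at this
    exact this.mono_left nhdsWithin_le_nhds
  have e1 : v ≤ √(G (x t) x' x') :=
    ge_of_tendsto (lim _) (eventually_nhdsWithin_of_forall fun K hK => key1 K hK)
  have e2 : √(G (x t) x' x') ≤ v :=
    ge_of_tendsto (lim _) (eventually_nhdsWithin_of_forall fun K hK => key2 K hK)
  have e3 : √(G (x t) x' x') = v := le_antisymm e2 e1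
  have e4 : 0 ≤ G (x t) x' x' := by
    by_contra hneg
    push Not at hneg
    rw [Real.sqrt_eq_zero_of_nonpos hneg.le] at e3
    linarith only [hv, e3]
  rw [← e3, Real.sq_sqrt e4]

lemma LocalMetric.abs_deriv_dist_le (h : LocalMetric U G ψ) {y : ℝ → E} {t : ℝ} {y' : E} {p : X}
    {f' : ℝ} (hyt : y t ∈ U) (hd : HasDerivAt y y' t)
    (hf : HasDerivAt (fun s => dist p (ψ (y s))) f' t) :
    |f'| ≤ √(G (y t) y' y') := by
  have key : ∀ K : ℝ, 1 < K → |f'| ≤ K * √(G (y t) y' y') := by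
    intro K hK
    have h1 : Tendsto (fun s => |slope (fun s => dist p (ψ (y s))) t s|) (𝓝[≠] t) (𝓝 |f'|) :=
      (hasDerivAt_iff_tendsto_slope.1 hf).abs
    refine le_of_tendsto_of_tendsto h1 ((tendsto_sqrt_slope hd (G (y t))).const_mul K) ?_
    filter_upwards [h.eventually_dist_le hyt hd hK, self_mem_nhdsWithin] with s h2 h3
    have h4 : 0 < |s - t| := abs_pos.2 (sub_ne_zero.2 h3)
    rw [slope_def_field, abs_div, div_le_iff₀ h4]
    have h5 : |dist p (ψ (y s)) - dist p (ψ (y t))| ≤ dist (ψ (y s)) (ψ (y t)) := by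
      have := abs_dist_sub_le (ψ (y s)) (ψ (y t)) p
      rwa [dist_comm (ψ (y s)) p, dist_comm (ψ (y t)) p] at this
    linarith only [h2, h5]
  have lim : Tendsto (fun K : ℝ => K * √(G (y t) y' y')) (𝓝[>] 1) (𝓝 (√(G (y t) y' y'))) := by
    have : Tendsto (fun K : ℝ => K * √(G (y t) y' y')) (𝓝 1) (𝓝 (1 * √(G (y t) y' y'))) :=
      tendsto_id.mul_const _
    rw [one_mul] at this
    exact this.mono_left nhdsWithin_le_nhds
  exact ge_of_tendsto lim (eventually_nhdsWithin_of_forall fun K hK => key K hK)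

/-- length estimate, in energy form -/
lemma LocalMetric.dist_le_energy (h : LocalMetric U G ψ) {y : ℝ → E} {a b v : ℝ} {C : ℝ≥0}
    (hab : a ≤ b) (hv : 0 < v) (hyU : ∀ t ∈ Icc a b, y t ∈ U)
    (hyL : ∀ s ∈ Icc a b, ∀ t ∈ Icc a b, dist (ψ (y s)) (ψ (y t)) ≤ C * |s - t|)
    (hyd : ∀ᵐ t, t ∈ Icc a b → DifferentiableAt ℝ y t)
    (hint : IntervalIntegrable (fun t => G (y t) (deriv y t) (deriv y t)) volume a b) :
    dist (ψ (y a)) (ψ (y b)) ≤
      ∫ t in a..b, (G (y t) (deriv y t) (deriv y t) / (2 * v) + v / 2) := by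
  set f : ℝ → ℝ := fun s => dist (ψ (y a)) (ψ (y s)) with hf
  have hfL : LipschitzOnWith C f (uIcc a b) := by
    rw [uIcc_of_le hab]
    refine LipschitzOnWith.of_dist_le_mul fun s hs t ht => ?_
    rw [Real.dist_eq, Real.dist_eq]
    have h1 : |f s - f t| ≤ dist (ψ (y s)) (ψ (y t)) := by
      have := abs_dist_sub_le (ψ (y s)) (ψ (y t)) (ψ (y a))
      rwa [dist_comm (ψ (y s)) (ψ (y a)), dist_comm (ψ (y t)) (ψ (y a))] at this
    exact h1.trans (hyL s hs t ht)
  have hac := hfL.absolutelyContinuousOnInterval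
  have h1 : ∫ t in a..b, deriv f t = f b - f a := hac.integral_deriv_eq_sub
  have h2 : f b - f a = dist (ψ (y a)) (ψ (y b)) := by simp [hf]
  rw [← h2, ← h1]
  refine intervalIntegral.integral_mono_ae_restrict hab hac.intervalIntegrable_deriv
    ((hint.div_const _).add intervalIntegrable_const) ?_
  rw [EventuallyLE, ae_restrict_iff' measurableSet_Icc]
  filter_upwards [hac.ae_differentiableAt, hyd] with t ht1 ht2 ht
  have ht1' := (ht1 (by rwa [uIcc_of_le hab])).hasDerivAt
  have ht2' := (ht2 ht).hasDerivAt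
  have h3 := h.abs_deriv_dist_le (hyU t ht) ht2' ht1'
  have h4 : deriv f t ≤ √(G (y t) (deriv y t) (deriv y t)) := (le_abs_self _).trans h3
  refine h4.trans ?_
  set q := G (y t) (deriv y t) (deriv y t) with hq
  have hq0 : 0 ≤ q := by
    rcases eq_or_ne (deriv y t) 0 with h0 | h0
    · simp [hq, h0]
    · exact (h.pos _ (hyU t ht) _ h0).le
  have h5 : √q ^ 2 = q := Real.sq_sqrt hq0
  have h6 : q / (2 * v) + v / 2 - √q = (√q - v) ^ 2 / (2 * v) := by
    field_simp
    nlinarith only [h5]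
  have h7 : 0 ≤ (√q - v) ^ 2 / (2 * v) := by (clear * - hv; positivity)
  linarith only [h6, h7]

end Vale.Agent.P216.Local
end
end

section

section

set_option maxSynthPendingDepth 3

open Set Filter Topology MeasureTheory
open scoped NNReal ENNReal ContDiff

namespace Vale.Agent.P216.Local

/-- du Bois-Reymond lemma in integrated form. -/
lemma du_bois_reymond {a b : ℝ} (hab : a < b) {u r : ℝ → ℝ}
    (hu : IntervalIntegrable u volume a b) (hr : IntervalIntegrable r volume a b)
    (h : ∀ η : ℝ → ℝ, ContDiff ℝ 1 η → η a = 0 → η b = 0 →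
      ∫ t in a..b, (r t * η t + u t * deriv η t) = 0) :
    ∃ c : ℝ, ∀ᵐ t, t ∈ Ioo a b → u t = c + ∫ s in a..t, r s := by
  have hba : 0 < b - a := sub_pos.2 hab
  set R : ℝ → ℝ := fun t => ∫ s in a..t, r s with hR
  have hRac : AbsolutelyContinuousOnInterval R a b :=
    hr.absolutelyContinuousOnInterval_intervalIntegral (by simp only [left_mem_uIcc])
  have hRcont : ContinuousOn R (uIcc a b) := hRac.continuousOn
  have hRint : IntervalIntegrable R volume a b := hRcont.intervalIntegrable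
  set c : ℝ := (∫ t in a..b, (u t - R t)) / (b - a) with hc
  refine ⟨c, ?_⟩
  set w : ℝ → ℝ := fun t => u t - R t - c with hw
  have hwint : IntervalIntegrable w volume a b := (hu.sub hRint).sub intervalIntegrable_const
  have hw0 : ∫ t in a..b, w t = 0 := by
    rw [hw, intervalIntegral.integral_sub (hu.sub hRint) intervalIntegrable_const,
      intervalIntegral.integral_const, hc]
    simp only [smul_eq_mul]
    field_simp
    ring
  have hRderiv : ∀ᵐ t, t ∈ uIcc a b → deriv R t = r t := by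
    filter_upwards [hr.ae_hasDerivAt_integral] with t ht1 ht2
    exact (ht1 ht2 a (by simp only [left_mem_uIcc])).deriv
  have hwon : IntegrableOn w (Ioo a b) :=
    ((intervalIntegrable_iff_integrableOn_Ioo_of_le hab.le).1 hwint)
  have main : ∀ᵐ t, t ∈ Ioo a b → w t = 0 := by
    refine isOpen_Ioo.ae_eq_zero_of_integral_contDiff_smul_eq_zero hwon.locallyIntegrableOn ?_
    intro g hg hgc hgs
    have hgcont : Continuous g := hg.continuous
    have hgint : IntervalIntegrable g volume a b := hgcont.intervalIntegrable a b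
    set gm : ℝ := (∫ t in a..b, g t) / (b - a) with hgm
    set η : ℝ → ℝ := fun t => ∫ s in a..t, (g s - gm) with hη
    have hgmc : Continuous fun s => g s - gm := by fun_prop
    have hηd : ∀ t, HasDerivAt η (g t - gm) t := fun t =>
      intervalIntegral.integral_hasDerivAt_right (hgmc.intervalIntegrable _ _)
        (hgmc.stronglyMeasurableAtFilter _ _) hgmc.continuousAt
    have hηderiv : deriv η = fun t => g t - gm := by
      ext t
      exact (hηd t).deriv
    have hηC : ContDiff ℝ 1 η := by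
      rw [contDiff_one_iff_deriv]
      refine ⟨fun t => (hηd t).differentiableAt, ?_⟩
      rw [hηderiv]
      exact hgmc
    have hηa : η a = 0 := by simp [hη]
    have hηb : η b = 0 := by
      simp only [hη]
      rw [intervalIntegral.integral_sub hgint intervalIntegrable_const,
        intervalIntegral.integral_const, hgm]
      simp only [smul_eq_mul]
      field_simp
      ring
    have h1 := h η hηC hηa hηb
    have hηac : AbsolutelyContinuousOnInterval η a b :=
      hηC.contDiffOn.absolutelyContinuousOnInterval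
    have h2 := hRac.integral_mul_deriv_eq_deriv_mul hηac
    rw [hηa, hηb, hηderiv] at h2
    have h3 : ∫ t in a..b, deriv R t * η t = ∫ t in a..b, r t * η t := by
      refine intervalIntegral.integral_congr_ae ?_
      filter_upwards [hRderiv] with t ht1 ht2
      rw [ht1 (uIoc_subset_uIcc ht2)]
    rw [h3] at h2
    rw [hηderiv] at h1
    have hηcont : Continuous η := hηC.continuous
    have hrη : IntervalIntegrable (fun t => r t * η t) volume a b :=
      hr.mul_continuousOn hηcont.continuousOn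
    have hug : IntervalIntegrable (fun t => u t * (g t - gm)) volume a b :=
      hu.mul_continuousOn hgmc.continuousOn
    have hRg : IntervalIntegrable (fun t => R t * (g t - gm)) volume a b :=
      hRint.mul_continuousOn hgmc.continuousOn
    rw [intervalIntegral.integral_add hrη hug] at h1
    have h4 : ∫ t in a..b, (u t - R t - c) * (g t - gm) = 0 := by
      have e1 : (fun t => (u t - R t - c) * (g t - gm)) =
          fun t => (u t * (g t - gm) - R t * (g t - gm)) - c * (g t - gm) := by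
        ext t; ring
      rw [e1, intervalIntegral.integral_sub (hug.sub hRg)
        ((hgmc.intervalIntegrable a b).const_mul c),
        intervalIntegral.integral_sub hug hRg, intervalIntegral.integral_const_mul]
      have e2 : ∫ t in a..b, (g t - gm) = 0 := hηb
      rw [e2, h2]
      linarith only [h1]
    have h5 : ∫ t in a..b, w t * g t = 0 := by
      have e1 : (fun t => (u t - R t - c) * (g t - gm)) = fun t => w t * g t - gm * w t := by
        ext t; simp only [hw]; ring
      rw [e1, intervalIntegral.integral_sub (hwint.mul_continuousOn hgcont.continuousOn)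
        (hwint.const_mul gm), intervalIntegral.integral_const_mul, hw0] at h4
      linarith only [h4]
    rw [intervalIntegral.integral_of_le hab.le] at h5
    have h6 : ∫ t, g t • w t = ∫ t in Ioc a b, g t • w t := by
      refine (setIntegral_eq_integral_of_forall_compl_eq_zero fun t ht => ?_).symm
      have : t ∉ tsupport g := fun h => ht (Ioo_subset_Ioc_self (hgs h))
      rw [image_eq_zero_of_notMem_tsupport this, zero_smul]
    rw [h6, ← h5]
    refine setIntegral_congr_fun measurableSet_Ioc fun t _ => ?_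
    simp [mul_comm]
  filter_upwards [main] with t ht1 ht2
  have := ht1 ht2
  simp only [hw] at this
  linarith only [this]

end Vale.Agent.P216.Local
end
end

section

section

set_option maxSynthPendingDepth 3

open Set Filter Topology MeasureTheory
open scoped NNReal ENNReal ContDiff

namespace Vale.Agent.P216.Local

variable {E : Type*} [NormedAddCommGroup E] [NormedSpace ℝ E]
  {X : Type*} [PseudoMetricSpace X]
variable {U : Set E} {G : E → E →L[ℝ] E →L[ℝ] ℝ} {ψ : E → X}

/-- A ball on which all the local quantities are uniformly controlled. -/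
structure GoodBall (U : Set E) (G : E → E →L[ℝ] E →L[ℝ] ℝ) (ψ : E → X) (y : E) (ρ C : ℝ) :
    Prop where
  rpos : 0 < ρ
  cpos : 0 < C
  sub : Metric.ball y ρ ⊆ U
  normG : ∀ z ∈ Metric.ball y ρ, ‖G z‖ ≤ C
  normdG : ∀ z ∈ Metric.ball y ρ, ‖fderiv ℝ G z‖ ≤ C
  coer : ∀ z ∈ Metric.ball y ρ, ∀ v, ‖v‖ ^ 2 ≤ C * G z v v
  up : ∀ p ∈ Metric.ball y ρ, ∀ q ∈ Metric.ball y ρ, dist (ψ p) (ψ q) ≤ C * ‖p - q‖
  lo : ∀ p ∈ Metric.ball y ρ, ∀ q ∈ Metric.ball y ρ, ‖p - q‖ ≤ C * dist (ψ p) (ψ q)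

lemma LocalMetric.exists_goodBall [FiniteDimensional ℝ E] (h : LocalMetric U G ψ) {y : E}
    (hy : y ∈ U) : ∃ ρ C : ℝ, GoodBall U G ψ y ρ C := by
  obtain ⟨m, C, hm, hC, hmC⟩ := h.coercive_nhds hy
  have hyself := hmC.self_of_nhds
  have hdG : ContinuousAt (fderiv ℝ G) y := by
    have h1 : ContDiffAt ℝ 2 G y := h.smooth.contDiffAt (h.isOpen.mem_nhds hy)
    exact (h1.fderiv_right (m := 1) (by norm_num)).continuousAt
  have hdG' : ∀ᶠ z in 𝓝 y, ‖fderiv ℝ G z‖ < ‖fderiv ℝ G y‖ + 1 :=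
    hdG.norm.eventually_lt_const (lt_add_one _)
  obtain ⟨r1, hr1, h1⟩ := Metric.eventually_nhds_iff_ball.1 (hmC.and hdG')
  have hup := h.upper y hy 2 one_lt_two
  have hlo := h.lower y hy 2 one_lt_two
  obtain ⟨r2, hr2, h2⟩ := Metric.eventually_nhds_iff_ball.1 (hup.and hlo)
  set D : ℝ := max (max C (‖fderiv ℝ G y‖ + 1)) (max (1 / m) (max (2 * √C) (2 / √m))) with hD
  have hD1 : C ≤ D := (le_max_left _ _).trans (le_max_left _ _)
  have hD2 : ‖fderiv ℝ G y‖ + 1 ≤ D := (le_max_right _ _).trans (le_max_left _ _)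
  have hD3 : 1 / m ≤ D := (le_max_left _ _).trans (le_max_right _ _)
  have hD4 : 2 * √C ≤ D := (le_max_left _ _).trans ((le_max_right _ _).trans (le_max_right _ _))
  have hD5 : 2 / √m ≤ D := (le_max_right _ _).trans ((le_max_right _ _).trans (le_max_right _ _))
  have hDpos : 0 < D := hC.trans_le hD1
  have hball1 : ∀ z ∈ Metric.ball y (min r1 r2), z ∈ Metric.ball y r1 := fun z hz =>
    Metric.ball_subset_ball (min_le_left _ _) hz
  have hball2 : ∀ p ∈ Metric.ball y (min r1 r2), ∀ q ∈ Metric.ball y (min r1 r2),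
      (p, q) ∈ Metric.ball (y, y) r2 := fun p hp q hq => by
    rw [← ball_prod_same]
    exact ⟨Metric.ball_subset_ball (min_le_right _ _) hp,
      Metric.ball_subset_ball (min_le_right _ _) hq⟩
  refine ⟨min r1 r2, D, lt_min hr1 hr2, hDpos, fun z hz => (h1 z (hball1 z hz)).1.1,
    fun z hz => (h1 z (hball1 z hz)).1.2.1.trans hD1,
    fun z hz => ((h1 z (hball1 z hz)).2.le).trans hD2, fun z hz v => ?_, fun p hp q hq => ?_,
    fun p hp q hq => ?_⟩
  · have h3 := (h1 z (hball1 z hz)).1.2.2 v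
    have h4 : 0 ≤ G z v v := le_trans (by (clear * - hm; positivity)) h3
    have h5 : 1 / m * G z v v ≤ D * G z v v := mul_le_mul_of_nonneg_right hD3 h4
    have h6 : ‖v‖ ^ 2 ≤ 1 / m * G z v v := by
      rw [one_div, inv_mul_eq_div, le_div_iff₀ hm]
      linarith only [h3]
    exact h6.trans h5
  · have h3 := (h2 (p, q) (hball2 p hp q hq)).1
    simp only at h3
    have h4 : G y (p - q) (p - q) ≤ C * ‖p - q‖ ^ 2 := by
      have h5 := bil_le (G y) (p - q) (p - q)
      have h6 := le_abs_self (G y (p - q) (p - q))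
      have h7 := hyself.2.1
      nlinarith only [h5, h6, hyself]
    have h5 : √(G y (p - q) (p - q)) ≤ √C * ‖p - q‖ := by
      refine (Real.sqrt_le_sqrt h4).trans (le_of_eq ?_)
      rw [Real.sqrt_mul hC.le, Real.sqrt_sq (norm_nonneg _)]
    calc dist (ψ p) (ψ q) ≤ 2 * √(G y (p - q) (p - q)) := h3
      _ ≤ 2 * (√C * ‖p - q‖) := by linarith only [h5]
      _ = (2 * √C) * ‖p - q‖ := by ring
      _ ≤ D * ‖p - q‖ := mul_le_mul_of_nonneg_right hD4 (norm_nonneg _)
  · have h3 := (h2 (p, q) (hball2 p hp q hq)).2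
    simp only at h3
    have h4 := hyself.2.2 (p - q)
    have h5 : √m * ‖p - q‖ ≤ √(G y (p - q) (p - q)) := by
      refine le_trans (le_of_eq ?_) (Real.sqrt_le_sqrt h4)
      rw [Real.sqrt_mul hm.le, Real.sqrt_sq (norm_nonneg _)]
    have h6 : 0 < √m := Real.sqrt_pos.2 hm
    have h7 : √m * ‖p - q‖ ≤ 2 * dist (ψ p) (ψ q) := h5.trans h3
    have h8 : ‖p - q‖ ≤ 2 / √m * dist (ψ p) (ψ q) := by
      rw [div_mul_eq_mul_div, le_div_iff₀ h6]
      linarith only [h3, h5]
    exact h8.trans (mul_le_mul_of_nonneg_right hD5 dist_nonneg)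

lemma hasDerivAt_bil {p e u w : E} {h : ℝ} (hG : DifferentiableAt ℝ G (p + h • e)) :
    HasDerivAt (fun h : ℝ => G (p + h • e) (u + h • w) (u + h • w))
      (fderiv ℝ G (p + h • e) e (u + h • w) (u + h • w) + G (p + h • e) w (u + h • w)
        + G (p + h • e) (u + h • w) w) h := by
  have h1 : HasDerivAt (fun h : ℝ => p + h • e) e h := by
    simpa using ((hasDerivAt_id h).smul_const e).const_add p
  have h2 : HasDerivAt (fun h : ℝ => u + h • w) w h := by
    simpa using ((hasDerivAt_id h).smul_const w).const_add u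
  have h3 : HasDerivAt (fun h : ℝ => G (p + h • e)) (fderiv ℝ G (p + h • e) e) h :=
    hG.hasFDerivAt.comp_hasDerivAt h h1
  have h4 := (h3.clm_apply h2).clm_apply h2
  simpa [add_apply] using h4

/-- The curves we consider: unit-type speed minimisers staying in a good ball. -/
structure IsMin (ψ : E → X) (x : ℝ → E) (y : E) (ρ a b v : ℝ) : Prop where
  hab : a < b
  hv : 0 < v
  mem : ∀ t ∈ Icc a b, x t ∈ Metric.ball y ρ
  dist_eq : ∀ s ∈ Icc a b, ∀ t ∈ Icc a b, dist (ψ (x s)) (ψ (x t)) = v * |s - t|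

section
variable {x : ℝ → E} {y : E} {ρ C a b v : ℝ}

lemma IsMin.norm_sub_le (hB : GoodBall U G ψ y ρ C) (hx : IsMin ψ x y ρ a b v) :
    ∀ s ∈ Icc a b, ∀ t ∈ Icc a b, ‖x s - x t‖ ≤ (C * v) * |s - t| := by
  intro s hs t ht
  have := hB.lo _ (hx.mem s hs) _ (hx.mem t ht)
  rw [hx.dist_eq s hs t ht] at this
  linarith only [this]

lemma IsMin.lipschitzOn (hB : GoodBall U G ψ y ρ C) (hx : IsMin ψ x y ρ a b v) :
    LipschitzOnWith (C * v).toNNReal x (Icc a b) := by
  refine LipschitzOnWith.of_dist_le_mul fun s hs t ht => ?_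
  rw [dist_eq_norm, Real.dist_eq, Real.coe_toNNReal _ (mul_pos hB.cpos hx.hv).le]
  exact hx.norm_sub_le hB s hs t ht

lemma IsMin.ae_diff [FiniteDimensional ℝ E] (hB : GoodBall U G ψ y ρ C)
    (hx : IsMin ψ x y ρ a b v) :
    ∀ᵐ t, t ∈ Icc a b → DifferentiableAt ℝ x t := by
  have h1 : ∀ᵐ t : ℝ, t ∈ Icc a b → DifferentiableWithinAt ℝ x (Icc a b) t :=
    (hx.lipschitzOn hB).ae_differentiableWithinAt_of_mem
  have h2 : ∀ᵐ t : ℝ, t ≠ a := by simp [ae_iff, measure_singleton]
  have h3 : ∀ᵐ t : ℝ, t ≠ b := by simp [ae_iff, measure_singleton]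
  filter_upwards [h1, h2, h3] with t ht1 ht2 ht3 ht
  exact (ht1 ht).differentiableAt
    (Icc_mem_nhds (lt_of_le_of_ne ht.1 (Ne.symm ht2)) (lt_of_le_of_ne ht.2 ht3))

lemma IsMin.norm_deriv_le (hB : GoodBall U G ψ y ρ C)
    (hx : IsMin ψ x y ρ a b v) : ∀ t ∈ Ioo a b, ‖deriv x t‖ ≤ C * v := by
  intro t ht
  refine norm_deriv_le_of_lip' (mul_pos hB.cpos hx.hv).le ?_
  filter_upwards [Icc_mem_nhds ht.1 ht.2] with s hs
  have := hx.norm_sub_le hB s hs t (Ioo_subset_Icc_self ht)
  simpa only [Real.norm_eq_abs, ge_iff_le] using this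

lemma IsMin.speed (h : LocalMetric U G ψ) (hB : GoodBall U G ψ y ρ C)
    (hx : IsMin ψ x y ρ a b v) {t : ℝ} (ht : t ∈ Ioo a b) (hd : DifferentiableAt ℝ x t) :
    G (x t) (deriv x t) (deriv x t) = v ^ 2 := by
  refine h.speed hx.hv (hB.sub (hx.mem t (Ioo_subset_Icc_self ht))) ?_ hd.hasDerivAt
  filter_upwards [Icc_mem_nhds ht.1 ht.2] with s hs
  exact hx.dist_eq s hs t (Ioo_subset_Icc_self ht)

lemma IsMin.continuousOn (hB : GoodBall U G ψ y ρ C) (hx : IsMin ψ x y ρ a b v) :
    ContinuousOn x (Icc a b) := (hx.lipschitzOn hB).continuousOn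

/-- The integrand of the energy of `x + h η`. -/
noncomputable def F (G : E → E →L[ℝ] E →L[ℝ] ℝ) (x η : ℝ → E) (h t : ℝ) : ℝ :=
  G (x t + h • η t) (deriv x t + h • deriv η t) (deriv x t + h • deriv η t)

noncomputable def F' (G : E → E →L[ℝ] E →L[ℝ] ℝ) (x η : ℝ → E) (h t : ℝ) : ℝ :=
  fderiv ℝ G (x t + h • η t) (η t) (deriv x t + h • deriv η t) (deriv x t + h • deriv η t)
    + G (x t + h • η t) (deriv η t) (deriv x t + h • deriv η t)
    + G (x t + h • η t) (deriv x t + h • deriv η t) (deriv η t)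

lemma continuous_bil_apply : Continuous fun q : (E →L[ℝ] E →L[ℝ] ℝ) × E × E => q.1 q.2.1 q.2.2 := by
  fun_prop

lemma aesm_F [FiniteDimensional ℝ E] (h : LocalMetric U G ψ) {η : ℝ → E} (hη : ContDiff ℝ 1 η)
    {s : ℝ} (hxc : ContinuousOn x (Icc a b)) (hU : ∀ t ∈ Icc a b, x t + s • η t ∈ U) :
    AEStronglyMeasurable (F G x η s) (volume.restrict (Icc a b)) := by
  have h1 : ContinuousOn (fun t => G (x t + s • η t)) (Icc a b) :=
    h.smooth.continuousOn.comp (hxc.add (hη.continuous.continuousOn.const_smul s)) hU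
  have h1' : AEStronglyMeasurable (fun t => G (x t + s • η t)) (volume.restrict (Icc a b)) :=
    h1.aestronglyMeasurable measurableSet_Icc
  have h2 : AEStronglyMeasurable (fun t => deriv x t + s • deriv η t)
      (volume.restrict (Icc a b)) :=
    ((stronglyMeasurable_deriv x).add
      ((stronglyMeasurable_deriv η).const_smul s)).aestronglyMeasurable
  exact continuous_bil_apply.comp_aestronglyMeasurable (h1'.prodMk (h2.prodMk h2))

lemma aesm_F' [FiniteDimensional ℝ E] (h : LocalMetric U G ψ) {η : ℝ → E} (hη : ContDiff ℝ 1 η)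
    {s : ℝ} (hxc : ContinuousOn x (Icc a b)) (hU : ∀ t ∈ Icc a b, x t + s • η t ∈ U) :
    AEStronglyMeasurable (F' G x η s) (volume.restrict (Icc a b)) := by
  have h1 : ContinuousOn (fun t => G (x t + s • η t)) (Icc a b) :=
    h.smooth.continuousOn.comp (hxc.add (hη.continuous.continuousOn.const_smul s)) hU
  have h1' : AEStronglyMeasurable (fun t => G (x t + s • η t)) (volume.restrict (Icc a b)) :=
    h1.aestronglyMeasurable measurableSet_Icc
  have hdG : ContinuousOn (fderiv ℝ G) U :=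
    h.smooth.continuousOn_fderiv_of_isOpen h.isOpen (by norm_num)
  have h3 : ContinuousOn (fun t => fderiv ℝ G (x t + s • η t) (η t)) (Icc a b) :=
    (hdG.comp (hxc.add (hη.continuous.continuousOn.const_smul s)) hU).clm_apply
      hη.continuous.continuousOn
  have h3' : AEStronglyMeasurable (fun t => fderiv ℝ G (x t + s • η t) (η t))
      (volume.restrict (Icc a b)) := h3.aestronglyMeasurable measurableSet_Icc
  have h2 : AEStronglyMeasurable (fun t => deriv x t + s • deriv η t)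
      (volume.restrict (Icc a b)) :=
    ((stronglyMeasurable_deriv x).add
      ((stronglyMeasurable_deriv η).const_smul s)).aestronglyMeasurable
  have h4 : AEStronglyMeasurable (fun t => deriv η t) (volume.restrict (Icc a b)) :=
    (stronglyMeasurable_deriv η).aestronglyMeasurable
  exact ((continuous_bil_apply.comp_aestronglyMeasurable (h3'.prodMk (h2.prodMk h2))).add
    (continuous_bil_apply.comp_aestronglyMeasurable (h1'.prodMk (h4.prodMk h2)))).add
    (continuous_bil_apply.comp_aestronglyMeasurable (h1'.prodMk (h2.prodMk h4)))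

lemma IsMin.exists_room [FiniteDimensional ℝ E] (hB : GoodBall U G ψ y ρ C)
    (hx : IsMin ψ x y ρ a b v) {η : ℝ → E} (hη : ContDiff ℝ 1 η) :
    ∃ B h₀ : ℝ, 0 < B ∧ 0 < h₀ ∧ h₀ ≤ 1 ∧ (∀ t ∈ Icc a b, ‖η t‖ ≤ B ∧ ‖deriv η t‖ ≤ B) ∧
      ∀ t ∈ Icc a b, ∀ s : ℝ, |s| < h₀ → x t + s • η t ∈ Metric.ball y ρ := by
  obtain ⟨B1, hB1⟩ := isCompact_Icc.exists_bound_of_continuousOn
    (hη.continuous.continuousOn (s := Icc a b))
  obtain ⟨B2, hB2⟩ := isCompact_Icc.exists_bound_of_continuousOn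
    ((hη.continuous_deriv le_rfl).continuousOn (s := Icc a b))
  have hne : (Icc a b).Nonempty := nonempty_Icc.2 hx.hab.le
  obtain ⟨t₀, ht₀, hmax⟩ := isCompact_Icc.exists_isMaxOn hne
    (show ContinuousOn (fun t => dist (x t) y) (Icc a b) from
      (continuous_id.dist continuous_const).comp_continuousOn (hx.continuousOn hB))
  have hM : dist (x t₀) y < ρ := hx.mem t₀ ht₀
  set B : ℝ := max (max B1 B2) 1 with hBdef
  have hBpos : 0 < B := lt_of_lt_of_le one_pos (le_max_right _ _)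
  refine ⟨B, min 1 ((ρ - dist (x t₀) y) / B), hBpos, lt_min one_pos
    (div_pos (sub_pos.2 hM) hBpos), min_le_left _ _, fun t ht => ⟨?_, ?_⟩, fun t ht s hs => ?_⟩
  · exact (hB1 t ht).trans ((le_max_left _ _).trans (le_max_left _ _))
  · exact (hB2 t ht).trans ((le_max_right _ _).trans (le_max_left _ _))
  · have h1 : dist (x t) y ≤ dist (x t₀) y := hmax ht
    have h2 : ‖η t‖ ≤ B := (hB1 t ht).trans ((le_max_left _ _).trans (le_max_left _ _))
    have h3 : |s| < (ρ - dist (x t₀) y) / B := hs.trans_le (min_le_right _ _)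
    rw [lt_div_iff₀ hBpos] at h3
    rw [Metric.mem_ball]
    calc dist (x t + s • η t) y ≤ dist (x t + s • η t) (x t) + dist (x t) y := dist_triangle _ _ _
      _ = |s| * ‖η t‖ + dist (x t) y := by
        rw [dist_eq_norm, add_sub_cancel_left, norm_smul, Real.norm_eq_abs]
      _ ≤ |s| * B + dist (x t₀) y := by (clear * - h2 h1; gcongr)
      _ < ρ := by linarith only [h3]

lemma IsMin.F_zero [FiniteDimensional ℝ E] (h : LocalMetric U G ψ) (hB : GoodBall U G ψ y ρ C)
    (hx : IsMin ψ x y ρ a b v) (η : ℝ → E) :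
    ∫ t in a..b, F G x η 0 t = v ^ 2 * (b - a) := by
  have h1 : ∫ t in a..b, F G x η 0 t = ∫ t in a..b, (v ^ 2 : ℝ) := by
    refine intervalIntegral.integral_congr_ae ?_
    have h3 : ∀ᵐ t : ℝ, t ≠ b := by simp [ae_iff, measure_singleton]
    filter_upwards [hx.ae_diff hB, h3] with t ht1 ht3 ht2
    rw [uIoc_of_le hx.hab.le] at ht2
    have := hx.speed h hB ⟨ht2.1, lt_of_le_of_ne ht2.2 ht3⟩ (ht1 (Ioc_subset_Icc_self ht2))
    simpa only [F, zero_smul, add_zero] using this
  rw [h1, intervalIntegral.integral_const, smul_eq_mul]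
  ring

lemma IsMin.norm_deriv_ae_le (hB : GoodBall U G ψ y ρ C) (hx : IsMin ψ x y ρ a b v) :
    ∀ᵐ t, t ∈ Icc a b → ‖deriv x t‖ ≤ C * v := by
  have h2 : ∀ᵐ t : ℝ, t ≠ a := by simp [ae_iff, measure_singleton]
  have h3 : ∀ᵐ t : ℝ, t ≠ b := by simp [ae_iff, measure_singleton]
  filter_upwards [h2, h3] with t ht2 ht3 ht
  exact hx.norm_deriv_le hB t ⟨lt_of_le_of_ne ht.1 (Ne.symm ht2), lt_of_le_of_ne ht.2 ht3⟩

lemma IsMin.intervalIntegrable_F [FiniteDimensional ℝ E] (h : LocalMetric U G ψ)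
    (hB : GoodBall U G ψ y ρ C) (hx : IsMin ψ x y ρ a b v) {η : ℝ → E} (hη : ContDiff ℝ 1 η)
    {B h₀ s : ℝ} (hBpos : 0 < B) (h01 : h₀ ≤ 1)
    (hBη : ∀ t ∈ Icc a b, ‖η t‖ ≤ B ∧ ‖deriv η t‖ ≤ B)
    (hroom : ∀ t ∈ Icc a b, ∀ s : ℝ, |s| < h₀ → x t + s • η t ∈ Metric.ball y ρ)
    (hs : |s| < h₀) : IntervalIntegrable (F G x η s) volume a b := by
  rw [intervalIntegrable_iff_integrableOn_Icc_of_le hx.hab.le]
  refine Integrable.of_bound ?_ (C * (C * v + B) ^ 2) ?_
  · exact aesm_F h hη (hx.continuousOn hB) fun t ht => hB.sub (hroom t ht s hs)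
  · rw [ae_restrict_iff' measurableSet_Icc]
    filter_upwards [hx.norm_deriv_ae_le hB] with t ht1 ht
    have h1 : ‖deriv x t + s • deriv η t‖ ≤ C * v + B := by
      refine (norm_add_le _ _).trans (add_le_add (ht1 ht) ?_)
      rw [norm_smul, Real.norm_eq_abs]
      have := (hBη t ht).2
      nlinarith only [abs_nonneg s, norm_nonneg (deriv η t), this, h01, hs]
    have h2 := hB.normG _ (hroom t ht s hs)
    have h3 := bil_le (G (x t + s • η t)) (deriv x t + s • deriv η t) (deriv x t + s • deriv η t)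
    rw [Real.norm_eq_abs]
    refine h3.trans ?_
    have h4 : 0 ≤ ‖deriv x t + s • deriv η t‖ := norm_nonneg _
    calc ‖G (x t + s • η t)‖ * ‖deriv x t + s • deriv η t‖ * ‖deriv x t + s • deriv η t‖
        ≤ C * (C * v + B) * (C * v + B) := by
          have := hB.cpos
          have := hx.hv
          gcongr
      _ = C * (C * v + B) ^ 2 := by ring

lemma IsMin.le_J [FiniteDimensional ℝ E] (h : LocalMetric U G ψ)
    (hB : GoodBall U G ψ y ρ C) (hx : IsMin ψ x y ρ a b v) {η : ℝ → E} (hη : ContDiff ℝ 1 η)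
    (ha : η a = 0) (hb : η b = 0)
    {B h₀ s : ℝ} (hBpos : 0 < B) (h01 : h₀ ≤ 1)
    (hBη : ∀ t ∈ Icc a b, ‖η t‖ ≤ B ∧ ‖deriv η t‖ ≤ B)
    (hroom : ∀ t ∈ Icc a b, ∀ s : ℝ, |s| < h₀ → x t + s • η t ∈ Metric.ball y ρ)
    (hs : |s| < h₀) : v ^ 2 * (b - a) ≤ ∫ t in a..b, F G x η s t := by
  set z : ℝ → E := fun t => x t + s • η t with hz
  have hzd : ∀ᵐ t, t ∈ Icc a b → DifferentiableAt ℝ z t ∧
      deriv z t = deriv x t + s • deriv η t := by
    filter_upwards [hx.ae_diff hB] with t ht1 ht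
    have e1 := (ht1 ht).hasDerivAt
    have e2 := ((hη.differentiable one_ne_zero) t).hasDerivAt
    have e3 : HasDerivAt z (deriv x t + s • deriv η t) t := e1.add (e2.const_smul s)
    exact ⟨e3.differentiableAt, e3.deriv⟩
  have hFz : ∀ᵐ t, t ∈ Icc a b → G (z t) (deriv z t) (deriv z t) = F G x η s t := by
    filter_upwards [hzd] with t ht1 ht
    rw [(ht1 ht).2, F]
  have hFint := hx.intervalIntegrable_F h hB hη hBpos h01 hBη hroom hs
  have hint : IntervalIntegrable (fun t => G (z t) (deriv z t) (deriv z t)) volume a b := by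
    refine hFint.congr_ae ?_
    rw [EventuallyEq, ae_restrict_iff' measurableSet_uIoc]
    filter_upwards [hFz] with t ht1 ht
    rw [uIoc_of_le hx.hab.le] at ht
    exact (ht1 (Ioc_subset_Icc_self ht)).symm
  have hηL : ∀ s ∈ Icc a b, ∀ t ∈ Icc a b, ‖η s - η t‖ ≤ B * |s - t| := by
    intro s' hs' t' ht'
    have := (convex_Icc a b).norm_image_sub_le_of_norm_deriv_le (f := η) (C := B)
      (fun t _ => (hη.differentiable one_ne_zero) t) (fun t ht => (hBη t ht).2) ht' hs'
    simpa only [ge_iff_le, Real.norm_eq_abs] using this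
  have hCv : 0 < C * (C * v + B) := by
    have := hB.cpos
    have := hx.hv
    (clear h η hη ha hb h₀ s h01 hBη hroom hs z hz hzd hFz hFint hint hηL; positivity)
  have key := h.dist_le_energy (y := z) (a := a) (b := b) (v := v)
    (C := (C * (C * v + B)).toNNReal) hx.hab.le hx.hv
    (fun t ht => hB.sub (hroom t ht s hs)) (fun s' hs' t' ht' => ?_)
    (by filter_upwards [hzd] with t ht1 ht using (ht1 ht).1) hint
  · have e1 : z a = x a := by simp [hz, ha]
    have e2 : z b = x b := by simp only [hz, hb, smul_zero, add_zero]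
    rw [e1, e2, hx.dist_eq a (left_mem_Icc.2 hx.hab.le) b (right_mem_Icc.2 hx.hab.le)] at key
    have e3 : |a - b| = b - a := by
      rw [abs_sub_comm, abs_of_pos (sub_pos.2 hx.hab)]
    rw [e3, intervalIntegral.integral_add (hint.div_const _) intervalIntegrable_const,
      intervalIntegral.integral_div, intervalIntegral.integral_const, smul_eq_mul] at key
    have e4 : ∫ t in a..b, G (z t) (deriv z t) (deriv z t) = ∫ t in a..b, F G x η s t := by
      refine intervalIntegral.integral_congr_ae ?_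
      filter_upwards [hFz] with t ht1 ht
      rw [uIoc_of_le hx.hab.le] at ht
      exact ht1 (Ioc_subset_Icc_self ht)
    rw [e4] at key
    have hv := hx.hv
    set J := ∫ t in a..b, F G x η s t with hJ
    have e5 : v * (b - a) / 2 ≤ J / (2 * v) := by linarith only [key]
    rw [le_div_iff₀ (by (clear * - hv; positivity))] at e5
    nlinarith only [e5]
  · have e1 := hroom s' hs' s hs
    have e2 := hroom t' ht' s hs
    refine (hB.up _ e1 _ e2).trans ?_
    rw [Real.coe_toNNReal _ hCv.le, mul_assoc]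
    refine mul_le_mul_of_nonneg_left ?_ hB.cpos.le
    have e3 : x s' + s • η s' - (x t' + s • η t') = (x s' - x t') + s • (η s' - η t') := by
      rw [smul_sub]; abel
    rw [e3]
    refine (norm_add_le _ _).trans ?_
    rw [norm_smul, Real.norm_eq_abs]
    have e4 := hx.norm_sub_le hB s' hs' t' ht'
    have e5 := hηL s' hs' t' ht'
    have e6 : |s| ≤ 1 := hs.le.trans h01
    nlinarith only [norm_nonneg (η s' - η t'), e4, e5, h01, hs]

lemma IsMin.first_variation [FiniteDimensional ℝ E] (h : LocalMetric U G ψ)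
    (hB : GoodBall U G ψ y ρ C) (hx : IsMin ψ x y ρ a b v) {η : ℝ → E} (hη : ContDiff ℝ 1 η)
    (ha : η a = 0) (hb : η b = 0) :
    IntervalIntegrable (F' G x η 0) volume a b ∧ ∫ t in a..b, F' G x η 0 t = 0 := by
  obtain ⟨B, h₀, hBpos, h0, h01, hBη, hroom⟩ := hx.exists_room hB hη
  have hcont := hx.continuousOn hB
  have hderiv := intervalIntegral.hasDerivAt_integral_of_dominated_loc_of_deriv_le
    (μ := volume) (a := a) (b := b) (x₀ := (0 : ℝ)) (F := F G x η) (F' := F' G x η)
    (s := Metric.ball 0 h₀) (bound := fun _ => C * B * (C * v + B) ^ 2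
      + 2 * (C * B * (C * v + B))) (Metric.ball_mem_nhds 0 h0) ?_ ?_ ?_ ?_ ?_ ?_
  · refine ⟨hderiv.1, ?_⟩
    have hloc : IsLocalMin (fun s => ∫ t in a..b, F G x η s t) 0 := by
      filter_upwards [Metric.ball_mem_nhds (0 : ℝ) h0] with s hs
      rw [mem_ball_zero_iff, Real.norm_eq_abs] at hs
      rw [hx.F_zero h hB η]
      exact hx.le_J h hB hη ha hb hBpos h01 hBη hroom hs
    exact hloc.hasDerivAt_eq_zero hderiv.2
  · filter_upwards [Metric.ball_mem_nhds (0 : ℝ) h0] with s hs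
    rw [mem_ball_zero_iff, Real.norm_eq_abs] at hs
    rw [uIoc_of_le hx.hab.le]
    exact (aesm_F h hη hcont fun t ht => hB.sub (hroom t ht s hs)).mono_set Ioc_subset_Icc_self
  · exact hx.intervalIntegrable_F h hB hη hBpos h01 hBη hroom (by simpa using h0)
  · rw [uIoc_of_le hx.hab.le]
    exact (aesm_F' h hη hcont fun t ht => hB.sub (hroom t ht 0 (by simpa using h0))).mono_set
      Ioc_subset_Icc_self
  · filter_upwards [hx.norm_deriv_ae_le hB] with t ht1 ht s hs
    rw [uIoc_of_le hx.hab.le] at ht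
    have ht' := Ioc_subset_Icc_self ht
    rw [mem_ball_zero_iff, Real.norm_eq_abs] at hs
    have h1 : ‖deriv x t + s • deriv η t‖ ≤ C * v + B := by
      refine (norm_add_le _ _).trans (add_le_add (ht1 ht') ?_)
      rw [norm_smul, Real.norm_eq_abs]
      have := (hBη t ht').2
      nlinarith only [norm_nonneg (deriv η t), h01, this, hs]
    have h2 := hB.normG _ (hroom t ht' s hs)
    have h3 := hB.normdG _ (hroom t ht' s hs)
    have hη1 := (hBη t ht').1
    have hη2 := (hBη t ht').2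
    have hC := hB.cpos
    have hv := hx.hv
    have e1 : ‖fderiv ℝ G (x t + s • η t) (η t)‖ ≤ C * B :=
      (ContinuousLinearMap.le_opNorm _ _).trans (by (clear * - h3 hη1 hC; gcongr))
    have e2 := bil_le (fderiv ℝ G (x t + s • η t) (η t)) (deriv x t + s • deriv η t)
      (deriv x t + s • deriv η t)
    have e3 := bil_le (G (x t + s • η t)) (deriv η t) (deriv x t + s • deriv η t)
    have e4 := bil_le (G (x t + s • η t)) (deriv x t + s • deriv η t) (deriv η t)
    have e5 : ‖fderiv ℝ G (x t + s • η t) (η t)‖ * ‖deriv x t + s • deriv η t‖ *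
        ‖deriv x t + s • deriv η t‖ ≤ C * B * (C * v + B) * (C * v + B) := by (clear * - e1 h1 hC hBpos hv; gcongr)
    have e6 : ‖G (x t + s • η t)‖ * ‖deriv η t‖ * ‖deriv x t + s • deriv η t‖ ≤
        C * B * (C * v + B) := by (clear * - h2 hη2 hC h1 hBpos; gcongr)
    have e7 : ‖G (x t + s • η t)‖ * ‖deriv x t + s • deriv η t‖ * ‖deriv η t‖ ≤
        C * (C * v + B) * B := by (clear * - h2 h1 hC hη2 hv hBpos; gcongr)
    rw [Real.norm_eq_abs, F']
    refine (abs_add_three _ _ _).trans ?_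
    nlinarith only [e2, e3, e4, e5, e6]
  · exact intervalIntegrable_const
  · refine Eventually.of_forall fun t ht s hs => ?_
    rw [uIoc_of_le hx.hab.le] at ht
    rw [mem_ball_zero_iff, Real.norm_eq_abs] at hs
    have hz := hB.sub (hroom t (Ioc_subset_Icc_self ht) s hs)
    exact hasDerivAt_bil ((h.smooth.contDiffAt (h.isOpen.mem_nhds hz)).differentiableAt
      (by norm_num))

end

end Vale.Agent.P216.Local
end
end

section

section

set_option maxSynthPendingDepth 3

open Set Filter Topology MeasureTheory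
open scoped NNReal ENNReal ContDiff

namespace Vale.Agent.P216.Local

variable {E : Type*} [NormedAddCommGroup E] [NormedSpace ℝ E]
  {X : Type*} [PseudoMetricSpace X]
variable {U : Set E} {G : E → E →L[ℝ] E →L[ℝ] ℝ} {ψ : E → X}

/-- `quad A v e = A e v v`. -/
noncomputable def quad (A : E →L[ℝ] E →L[ℝ] E →L[ℝ] ℝ) (v : E) : E →L[ℝ] ℝ :=
  (A.flip v).flip v

@[simp] lemma quad_apply (A : E →L[ℝ] E →L[ℝ] E →L[ℝ] ℝ) (v e : E) : quad A v e = A e v v := by
  simp only [quad, ContinuousLinearMap.flip_apply]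

lemma contDiff_quad :
    ContDiff ℝ 1 fun q : (E →L[ℝ] E →L[ℝ] E →L[ℝ] ℝ) × E => quad q.1 q.2 := by
  unfold quad
  have h1 : ContDiff ℝ 1 fun q : (E →L[ℝ] E →L[ℝ] E →L[ℝ] ℝ) × E => q.1.flip :=
    (ContinuousLinearMap.flipₗᵢ ℝ E E (E →L[ℝ] ℝ)).contDiff.comp contDiff_fst
  have h2 : ContDiff ℝ 1 fun q : (E →L[ℝ] E →L[ℝ] E →L[ℝ] ℝ) × E => q.1.flip q.2 :=
    h1.clm_apply contDiff_snd
  have h3 : ContDiff ℝ 1 fun q : (E →L[ℝ] E →L[ℝ] E →L[ℝ] ℝ) × E => (q.1.flip q.2).flip :=
    (ContinuousLinearMap.flipₗᵢ ℝ E E ℝ).contDiff.comp h2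
  exact h3.clm_apply contDiff_snd

lemma norm_quad_le (A : E →L[ℝ] E →L[ℝ] E →L[ℝ] ℝ) (v : E) : ‖quad A v‖ ≤ ‖A‖ * ‖v‖ * ‖v‖ := by
  refine ContinuousLinearMap.opNorm_le_bound _ (by positivity) fun e => ?_
  rw [quad_apply]
  calc ‖A e v v‖ ≤ ‖A e v‖ * ‖v‖ := ContinuousLinearMap.le_opNorm _ _
    _ ≤ (‖A e‖ * ‖v‖) * ‖v‖ := by
      gcongr
      exact ContinuousLinearMap.le_opNorm _ _
    _ ≤ ((‖A‖ * ‖e‖) * ‖v‖) * ‖v‖ := by
      gcongr
      exact ContinuousLinearMap.le_opNorm _ _
    _ = ‖A‖ * ‖v‖ * ‖v‖ * ‖e‖ := by ring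

variable {x : ℝ → E} {y : E} {ρ C a b v : ℝ}

/-- the force term -/
noncomputable def force (G : E → E →L[ℝ] E →L[ℝ] ℝ) (x : ℝ → E) (t : ℝ) : E →L[ℝ] ℝ :=
  quad (fderiv ℝ G (x t)) (deriv x t)

lemma IsMin.force_integrable [FiniteDimensional ℝ E] (h : LocalMetric U G ψ)
    (hB : GoodBall U G ψ y ρ C) (hx : IsMin ψ x y ρ a b v) :
    IntervalIntegrable (force G x) volume a b := by
  rw [intervalIntegrable_iff_integrableOn_Icc_of_le hx.hab.le]
  refine Integrable.of_bound ?_ (C * (C * v) * (C * v)) ?_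
  · have hdG : ContinuousOn (fderiv ℝ G) U :=
      h.smooth.continuousOn_fderiv_of_isOpen h.isOpen (by norm_num)
    have h1 : ContinuousOn (fun t => fderiv ℝ G (x t)) (Icc a b) :=
      hdG.comp (hx.continuousOn hB) fun t ht => hB.sub (hx.mem t ht)
    have h2 : AEStronglyMeasurable (fun t => fderiv ℝ G (x t)) (volume.restrict (Icc a b)) :=
      h1.aestronglyMeasurable measurableSet_Icc
    have h3 : AEStronglyMeasurable (deriv x) (volume.restrict (Icc a b)) :=
      (stronglyMeasurable_deriv x).aestronglyMeasurable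
    have h4 : Continuous fun q : (E →L[ℝ] E →L[ℝ] E →L[ℝ] ℝ) × E => quad q.1 q.2 :=
      contDiff_quad.continuous
    have h5 := h4.comp_aestronglyMeasurable (h2.prodMk h3)
    exact h5
  · rw [ae_restrict_iff' measurableSet_Icc]
    filter_upwards [hx.norm_deriv_ae_le hB] with t ht1 ht
    have h1 := hB.normdG _ (hx.mem t ht)
    have h2 := ht1 ht
    have := hB.cpos
    have := hx.hv
    refine (norm_quad_le _ _).trans ?_
    gcongr

lemma IsMin.momentum_scalar [FiniteDimensional ℝ E] (h : LocalMetric U G ψ)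
    (hB : GoodBall U G ψ y ρ C) (hx : IsMin ψ x y ρ a b v) (e : E) :
    ∃ c : ℝ, ∀ᵐ t, t ∈ Ioo a b →
      2 * G (x t) (deriv x t) e = c + ∫ s in a..t, force G x s e := by
  have hF := hx.force_integrable h hB
  have hFe : IntervalIntegrable (fun t => force G x t e) volume a b :=
    ⟨(ContinuousLinearMap.apply ℝ ℝ e).integrable_comp hF.1,
      (ContinuousLinearMap.apply ℝ ℝ e).integrable_comp hF.2⟩
  have hG1 : IntervalIntegrable (fun t => 2 * G (x t) (deriv x t) e) volume a b := by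
    rw [intervalIntegrable_iff_integrableOn_Icc_of_le hx.hab.le]
    refine Integrable.of_bound ?_ (2 * (C * (C * v) * ‖e‖)) ?_
    · have h1 : ContinuousOn (fun t => G (x t)) (Icc a b) :=
        h.smooth.continuousOn.comp (hx.continuousOn hB) fun t ht => hB.sub (hx.mem t ht)
      have h2 : AEStronglyMeasurable (fun t => G (x t)) (volume.restrict (Icc a b)) :=
        h1.aestronglyMeasurable measurableSet_Icc
      have h3 : AEStronglyMeasurable (deriv x) (volume.restrict (Icc a b)) :=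
        (stronglyMeasurable_deriv x).aestronglyMeasurable
      have h4 : AEStronglyMeasurable (fun _ : ℝ => e) (volume.restrict (Icc a b)) :=
        aestronglyMeasurable_const
      exact (continuous_bil_apply.comp_aestronglyMeasurable (h2.prodMk (h3.prodMk h4))).const_mul 2
    · rw [ae_restrict_iff' measurableSet_Icc]
      filter_upwards [hx.norm_deriv_ae_le hB] with t ht1 ht
      have h1 := hB.normG _ (hx.mem t ht)
      have h2 := ht1 ht
      have h3 := bil_le (G (x t)) (deriv x t) e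
      have := hB.cpos
      have := hx.hv
      rw [norm_mul, Real.norm_eq_abs, Real.norm_eq_abs, abs_two]
      gcongr
      exact h3.trans (by (clear h hF hFe h3 this; gcongr))
  refine du_bois_reymond hx.hab hG1 hFe fun θ hθ hθa hθb => ?_
  have hη : ContDiff ℝ 1 fun t => θ t • e := hθ.smul contDiff_const
  have h1 := (hx.first_variation h hB hη (by simp only [hθa, zero_smul]) (by simp [hθb])).2
  rw [← h1]
  refine intervalIntegral.integral_congr fun t ht => ?_
  rw [uIcc_of_le hx.hab.le] at ht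
  have hd : deriv (fun t => θ t • e) t = deriv θ t • e :=
    (((hθ.differentiable one_ne_zero) t).hasDerivAt.smul_const e).deriv
  have hs := h.symm _ (hB.sub (hx.mem t ht)) e (deriv x t)
  simp only [force, quad_apply, F', zero_smul, add_zero, map_smul, hd, smul_apply, smul_eq_mul, hs]
  ring

lemma IsMin.momentum [FiniteDimensional ℝ E] (h : LocalMetric U G ψ)
    (hB : GoodBall U G ψ y ρ C) (hx : IsMin ψ x y ρ a b v) :
    ∃ P₀ : E →L[ℝ] ℝ, ∀ᵐ t, t ∈ Ioo a b →
      G (x t) (deriv x t) = P₀ + (1 / 2 : ℝ) • ∫ s in a..t, force G x s := by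
  have hF := hx.force_integrable h hB
  set bs := Module.finBasis ℝ E with hbs
  choose c hc using fun i => hx.momentum_scalar h hB (bs i)
  refine ⟨LinearMap.toContinuousLinearMap (bs.constr ℝ fun i => c i / 2), ?_⟩
  have hall : ∀ᵐ t, ∀ i, t ∈ Ioo a b →
      2 * G (x t) (deriv x t) (bs i) = c i + ∫ s in a..t, force G x s (bs i) :=
    ae_all_iff.2 hc
  filter_upwards [hall] with t ht1 ht
  have hFt : IntervalIntegrable (force G x) volume a t :=
    hF.mono_set (by
      rw [uIcc_of_le hx.hab.le, uIcc_of_le ht.1.le]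
      exact Icc_subset_Icc_right ht.2.le)
  have key : ((G (x t) (deriv x t) : E →L[ℝ] ℝ) : E →ₗ[ℝ] ℝ) =
      ((LinearMap.toContinuousLinearMap (bs.constr ℝ fun i => c i / 2) +
        (1 / 2 : ℝ) • ∫ s in a..t, force G x s : E →L[ℝ] ℝ) : E →ₗ[ℝ] ℝ) := by
    refine bs.ext fun i => ?_
    have h1 := ht1 i ht
    have h2 := ContinuousLinearMap.intervalIntegral_apply hFt (bs i)
    simp only [ContinuousLinearMap.coe_coe, add_apply, LinearMap.coe_toContinuousLinearMap',
      Module.Basis.constr_basis, smul_apply, smul_eq_mul, h2]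
    linarith only [h1]
  exact ContinuousLinearMap.coe_injective key

/-- `G z` as a continuous linear equivalence. -/
lemma LocalMetric.exists_equiv [FiniteDimensional ℝ E] (h : LocalMetric U G ψ) {z : E}
    (hz : z ∈ U) : ∃ e : E ≃L[ℝ] (E →L[ℝ] ℝ), (e : E →L[ℝ] (E →L[ℝ] ℝ)) = G z := by
  have hinj : Function.Injective (G z) := by
    rw [injective_iff_map_eq_zero]
    intro v hv
    by_contra hne
    have := h.pos z hz v hne
    rw [hv] at this
    simp at this
  have hfin : Module.finrank ℝ E = Module.finrank ℝ (E →L[ℝ] ℝ) := by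
    rw [← (LinearMap.toContinuousLinearMap (𝕜 := ℝ) (E := E) (F' := ℝ)).finrank_eq]
    exact (Subspace.dual_finrank_eq (K := ℝ) (V := E)).symm
  let e₀ : E ≃ₗ[ℝ] (E →L[ℝ] ℝ) :=
    LinearEquiv.ofInjectiveOfFinrankEq (G z : E →ₗ[ℝ] (E →L[ℝ] ℝ)) hinj hfin
  refine ⟨e₀.toContinuousLinearEquiv, ?_⟩
  ext v w
  rfl

lemma LocalMetric.inverse_apply [FiniteDimensional ℝ E] (h : LocalMetric U G ψ) {z : E}
    (hz : z ∈ U) (w : E) : (G z).inverse (G z w) = w := by
  obtain ⟨e, he⟩ := h.exists_equiv hz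
  rw [← he, ContinuousLinearMap.inverse_equiv]
  simp

lemma LocalMetric.apply_inverse [FiniteDimensional ℝ E] (h : LocalMetric U G ψ) {z : E}
    (hz : z ∈ U) (w : E →L[ℝ] ℝ) : G z ((G z).inverse w) = w := by
  obtain ⟨e, he⟩ := h.exists_equiv hz
  rw [← he, ContinuousLinearMap.inverse_equiv]
  simp

lemma LocalMetric.contDiffAt_inverse [FiniteDimensional ℝ E] (h : LocalMetric U G ψ) {z : E}
    (hz : z ∈ U) : ContDiffAt ℝ 1 (fun z => (G z).inverse) z := by
  obtain ⟨e, he⟩ := h.exists_equiv hz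
  have h1 : ContDiffAt ℝ 1 ContinuousLinearMap.inverse (G z) := by
    rw [← he]
    exact contDiffAt_map_inverse e
  exact h1.comp z ((h.smooth.contDiffAt (h.isOpen.mem_nhds hz)).of_le (by norm_num))

/-- the Hamiltonian type vector field -/
noncomputable def field (G : E → E →L[ℝ] E →L[ℝ] ℝ) (q : E × (E →L[ℝ] ℝ)) : E × (E →L[ℝ] ℝ) :=
  ((G q.1).inverse q.2, (1 / 2 : ℝ) • quad (fderiv ℝ G q.1) ((G q.1).inverse q.2))

lemma LocalMetric.contDiffAt_field [FiniteDimensional ℝ E] (h : LocalMetric U G ψ)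
    {q : E × (E →L[ℝ] ℝ)} (hq : q.1 ∈ U) : ContDiffAt ℝ 1 (field G) q := by
  have h1 : ContDiffAt ℝ 1 (fun q : E × (E →L[ℝ] ℝ) => (G q.1).inverse) q :=
    (h.contDiffAt_inverse hq).comp q contDiffAt_fst
  have h2 : ContDiffAt ℝ 1 (fun q : E × (E →L[ℝ] ℝ) => (G q.1).inverse q.2) q :=
    h1.clm_apply contDiffAt_snd
  have h3 : ContDiffAt ℝ 1 (fderiv ℝ G) q.1 :=
    (h.smooth.contDiffAt (h.isOpen.mem_nhds hq)).fderiv_right (m := 1) (by norm_num)
  have h4 : ContDiffAt ℝ 1 (fun q : E × (E →L[ℝ] ℝ) => fderiv ℝ G q.1) q :=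
    h3.comp q contDiffAt_fst
  have h6 : ContDiffAt ℝ 1 (fun q : E × (E →L[ℝ] ℝ) =>
      ((fderiv ℝ G q.1, (G q.1).inverse q.2) : (E →L[ℝ] E →L[ℝ] E →L[ℝ] ℝ) × E)) q :=
    h4.prodMk h2
  have h7 : ContDiff ℝ 1 fun q : (E →L[ℝ] E →L[ℝ] E →L[ℝ] ℝ) × E => quad q.1 q.2 :=
    contDiff_quad
  have h5 : ContDiffAt ℝ 1 ((fun q : (E →L[ℝ] E →L[ℝ] E →L[ℝ] ℝ) × E => quad q.1 q.2) ∘
      (fun q : E × (E →L[ℝ] ℝ) =>
      ((fderiv ℝ G q.1, (G q.1).inverse q.2) : (E →L[ℝ] E →L[ℝ] E →L[ℝ] ℝ) × E))) q :=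
    ContDiffAt.comp q h7.contDiffAt h6
  have h8 : ContDiffAt ℝ 1 (fun q : E × (E →L[ℝ] ℝ) =>
      (1 / 2 : ℝ) • quad (fderiv ℝ G q.1) ((G q.1).inverse q.2)) q := h5.const_smul _
  exact h2.prodMk h8

end Vale.Agent.P216.Local
end
end

section

section

set_option maxSynthPendingDepth 3

open Set Filter Topology MeasureTheory
open scoped NNReal ENNReal ContDiff

namespace Vale.Agent.P216.Local

variable {E : Type*} [NormedAddCommGroup E] [NormedSpace ℝ E]
  {X : Type*} [PseudoMetricSpace X]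
variable {U : Set E} {G : E → E →L[ℝ] E →L[ℝ] ℝ} {ψ : E → X}
variable {x : ℝ → E} {y : E} {ρ C a b v : ℝ}

lemma LocalMetric.continuousAt_vel [FiniteDimensional ℝ E] (h : LocalMetric U G ψ)
    {S : Set ℝ} {P : ℝ → E →L[ℝ] ℝ} {t : ℝ} (hxt : x t ∈ U) (hxc : ContinuousWithinAt x S t)
    (hP : ContinuousWithinAt P S t) :
    ContinuousWithinAt (fun t => (G (x t)).inverse (P t)) S t := by
  have h1 : ContinuousAt (fun z => (G z).inverse) (x t) := (h.contDiffAt_inverse hxt).continuousAt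
  have h2 : ContinuousWithinAt (fun t => (G (x t)).inverse) S t :=
    ContinuousAt.comp_continuousWithinAt (f := x) (g := fun z => (G z).inverse) h1 hxc
  exact h2.clm_apply hP

theorem IsMin.ode [FiniteDimensional ℝ E] (h : LocalMetric U G ψ)
    (hB : GoodBall U G ψ y ρ C) (hx : IsMin ψ x y ρ a b v) :
    ∃ P : ℝ → E →L[ℝ] ℝ, ∀ t ∈ Ioo a b, ContinuousAt P t ∧ G (x t) (deriv x t) = P t ∧
      HasDerivAt (fun t => (x t, P t)) (field G (x t, P t)) t := by
  obtain ⟨P₀, hP₀⟩ := hx.momentum h hB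
  have hF := hx.force_integrable h hB
  have hxc := hx.continuousOn hB
  have hxU : ∀ t ∈ Icc a b, x t ∈ U := fun t ht => hB.sub (hx.mem t ht)
  set P : ℝ → E →L[ℝ] ℝ := fun t => P₀ + (1 / 2 : ℝ) • ∫ s in a..t, force G x s with hP
  have hPc : ContinuousOn P (Icc a b) := by
    have h1 : ContinuousOn (fun t => ∫ s in a..t, force G x s) (uIcc a b) := by
      refine intervalIntegral.continuousOn_primitive_interval ?_
      rw [uIcc_of_le hx.hab.le]
      exact (intervalIntegrable_iff_integrableOn_Icc_of_le hx.hab.le).1 hF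
    rw [uIcc_of_le hx.hab.le] at h1
    have h2 : ContinuousOn (fun t => (1 / 2 : ℝ) • ∫ s in a..t, force G x s) (Icc a b) :=
      ContinuousOn.const_smul h1 (1 / 2 : ℝ)
    exact continuousOn_const.add h2
  set V : ℝ → E := fun t => (G (x t)).inverse (P t) with hV
  have hVc : ContinuousOn V (Icc a b) := fun t ht =>
    h.continuousAt_vel (hxU t ht) (hxc t ht) (hPc t ht)
  set W : ℝ → E := IccExtend hx.hab.le ((Icc a b).domRestrict V) with hW
  have hWc : Continuous W := (continuousOn_iff_continuous_domRestrict.1 hVc).Icc_extend'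
  have hWV : ∀ t ∈ Icc a b, W t = V t := fun t ht => by
    rw [hW, IccExtend_of_mem _ _ ht]
    rfl
  have hWd : ∀ t, HasDerivAt (fun t => ∫ s in a..t, W s) (W t) t := fun t =>
    intervalIntegral.integral_hasDerivAt_right (hWc.intervalIntegrable _ _)
      (hWc.stronglyMeasurableAtFilter _ _) hWc.continuousAt
  have hWC : ContDiff ℝ 1 fun t => ∫ s in a..t, W s := by
    rw [contDiff_one_iff_deriv]
    refine ⟨fun t => (hWd t).differentiableAt, ?_⟩
    have : deriv (fun t => ∫ s in a..t, W s) = W := by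
      ext t
      exact (hWd t).deriv
    rw [this]
    exact hWc
  have hxac : AbsolutelyContinuousOnInterval x a b := by
    have h1 := hx.lipschitzOn hB
    rw [← uIcc_of_le hx.hab.le] at h1
    exact h1.absolutelyContinuousOnInterval
  have hgac : AbsolutelyContinuousOnInterval (x - fun t => ∫ s in a..t, W s) a b :=
    hxac.sub hWC.contDiffOn.absolutelyContinuousOnInterval
  have hgd : ∀ᵐ t, t ∈ uIcc a b → HasDerivAt (x - fun t => ∫ s in a..t, W s) 0 t := by
    have h2 : ∀ᵐ t : ℝ, t ≠ a := by simp [ae_iff, measure_singleton]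
    have h3 : ∀ᵐ t : ℝ, t ≠ b := by simp [ae_iff, measure_singleton]
    filter_upwards [hP₀, hx.ae_diff hB, h2, h3] with t ht1 ht2 ht3 ht4 ht
    rw [uIcc_of_le hx.hab.le] at ht
    have ht' : t ∈ Ioo a b :=
      ⟨lt_of_le_of_ne ht.1 (Ne.symm ht3), lt_of_le_of_ne ht.2 ht4⟩
    have e1 : deriv x t = W t := by
      rw [hWV t ht, hV, ← h.inverse_apply (hxU t ht) (deriv x t), ht1 ht']
    have e2 := (ht2 ht).hasDerivAt.sub (hWd t)
    rw [e1, sub_self] at e2
    exact e2
  obtain ⟨c, hc⟩ := hgac.const_of_ae_hasDerivAt_zero hgd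
  have hxeq : ∀ t ∈ Icc a b, x t = c + ∫ s in a..t, W s := fun t ht => by
    have := hc t (by rwa [uIcc_of_le hx.hab.le])
    simp only [Pi.sub_apply] at this
    rw [← this]
    abel
  have hxd : ∀ t ∈ Ioo a b, HasDerivAt x (V t) t := fun t ht => by
    have e1 : x =ᶠ[𝓝 t] fun t => c + ∫ s in a..t, W s := by
      filter_upwards [Icc_mem_nhds ht.1 ht.2] with s hs using hxeq s hs
    rw [← hWV t (Ioo_subset_Icc_self ht)]
    exact ((hWd t).const_add c).congr_of_eventuallyEq e1
  refine ⟨P, fun t ht => ?_⟩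
  have ht' := Ioo_subset_Icc_self ht
  have hPt : ContinuousAt P t := hPc.continuousAt (Icc_mem_nhds ht.1 ht.2)
  refine ⟨hPt, ?_, ?_⟩
  · rw [(hxd t ht).deriv]
    exact h.apply_inverse (hxU t ht') _
  · refine (hxd t ht).prodMk ?_
    have hforce : force G x =ᶠ[𝓝 t] fun t => quad (fderiv ℝ G (x t)) (V t) := by
      filter_upwards [Ioo_mem_nhds ht.1 ht.2] with s hs
      rw [force, (hxd s hs).deriv]
    have hdG : ContinuousOn (fderiv ℝ G) U :=
      h.smooth.continuousOn_fderiv_of_isOpen h.isOpen (by norm_num)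
    have hc1 : ContinuousAt (fun t => fderiv ℝ G (x t)) t :=
      ContinuousAt.comp (f := x) (g := fderiv ℝ G)
        (hdG.continuousAt (h.isOpen.mem_nhds (hxU t ht')))
        (hxc.continuousAt (Icc_mem_nhds ht.1 ht.2))
    have hc2 : ContinuousAt V t := hVc.continuousAt (Icc_mem_nhds ht.1 ht.2)
    have hquad : Continuous fun q : (E →L[ℝ] E →L[ℝ] E →L[ℝ] ℝ) × E => quad q.1 q.2 :=
      contDiff_quad.continuous
    have hc3 : ContinuousAt (fun t => quad (fderiv ℝ G (x t)) (V t)) t := by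
      have h5 := hquad.continuousAt.comp (x := t) (hc1.prodMk hc2)
      exact h5
    have hc4 : ContinuousAt (force G x) t := hc3.congr hforce.symm
    have hFt : IntervalIntegrable (force G x) volume a t :=
      hF.mono_set (by
        rw [uIcc_of_le hx.hab.le, uIcc_of_le ht.1.le]
        exact Icc_subset_Icc_right ht.2.le)
    have hmeas : StronglyMeasurableAtFilter (force G x) (𝓝 t) volume := by
      refine ⟨Ioo a b, Ioo_mem_nhds ht.1 ht.2, ?_⟩
      have := ((intervalIntegrable_iff_integrableOn_Icc_of_le hx.hab.le).1 hF)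
      exact this.aestronglyMeasurable.mono_set Ioo_subset_Icc_self
    have hd := intervalIntegral.integral_hasDerivAt_right hFt hmeas hc4
    have hd2 := (hd.const_smul (1 / 2 : ℝ)).const_add P₀
    have e3 : force G x t = quad (fderiv ℝ G (x t)) (V t) := hforce.self_of_nhds
    rw [e3] at hd2
    exact hd2

/-- Local unique continuation for minimisers. -/
theorem IsMin.unique [FiniteDimensional ℝ E] (h : LocalMetric U G ψ)
    (hB : GoodBall U G ψ y ρ C) {x₁ x₂ : ℝ → E} (hx₁ : IsMin ψ x₁ y ρ a b v)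
    (hx₂ : IsMin ψ x₂ y ρ a b v) {t₀ : ℝ} (ht₀ : t₀ ∈ Ioo a b)
    (hcl : ∃ᶠ t in 𝓝 t₀, x₁ =ᶠ[𝓝 t] x₂) : x₁ =ᶠ[𝓝 t₀] x₂ := by
  obtain ⟨P₁, hP₁⟩ := hx₁.ode h hB
  obtain ⟨P₂, hP₂⟩ := hx₂.ode h hB
  have hxc₁ : ContinuousAt x₁ t₀ := (hx₁.continuousOn hB).continuousAt (Icc_mem_nhds ht₀.1 ht₀.2)
  have hxc₂ : ContinuousAt x₂ t₀ := (hx₂.continuousOn hB).continuousAt (Icc_mem_nhds ht₀.1 ht₀.2)
  have hfreq : ∃ᶠ t in 𝓝 t₀, x₁ t = x₂ t ∧ P₁ t = P₂ t := by
    have h1 : ∀ᶠ t in 𝓝 t₀, t ∈ Ioo a b := Ioo_mem_nhds ht₀.1 ht₀.2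
    refine (hcl.and_eventually h1).mono fun t ht => ?_
    have e1 : x₁ t = x₂ t := ht.1.self_of_nhds
    have e2 : deriv x₁ t = deriv x₂ t := ht.1.deriv_eq
    refine ⟨e1, ?_⟩
    rw [← (hP₁ t ht.2).2.1, ← (hP₂ t ht.2).2.1, e1, e2]
  have hx0 : x₁ t₀ = x₂ t₀ :=
    tendsto_nhds_unique_of_frequently_eq hxc₁ hxc₂ (hfreq.mono fun t ht => ht.1)
  have hP0 : P₁ t₀ = P₂ t₀ :=
    tendsto_nhds_unique_of_frequently_eq (hP₁ t₀ ht₀).1 (hP₂ t₀ ht₀).1
      (hfreq.mono fun t ht => ht.2)
  have hU : x₁ t₀ ∈ U := hB.sub (hx₁.mem t₀ (Ioo_subset_Icc_self ht₀))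
  obtain ⟨K, S, hS, hLip⟩ := (h.contDiffAt_field (q := (x₁ t₀, P₁ t₀)) hU).exists_lipschitzOnWith
  have hev₁ : ∀ᶠ t in 𝓝 t₀, HasDerivAt (fun t => (x₁ t, P₁ t)) (field G (x₁ t, P₁ t)) t ∧
      (x₁ t, P₁ t) ∈ S := by
    have hc : ContinuousAt (fun t => (x₁ t, P₁ t)) t₀ := hxc₁.prodMk (hP₁ t₀ ht₀).1
    filter_upwards [Ioo_mem_nhds ht₀.1 ht₀.2, hc.eventually hS] with t ht1 ht2
    exact ⟨(hP₁ t ht1).2.2, ht2⟩
  have hev₂ : ∀ᶠ t in 𝓝 t₀, HasDerivAt (fun t => (x₂ t, P₂ t)) (field G (x₂ t, P₂ t)) t ∧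
      (x₂ t, P₂ t) ∈ S := by
    have hc : ContinuousAt (fun t => (x₂ t, P₂ t)) t₀ := hxc₂.prodMk (hP₂ t₀ ht₀).1
    have hS' : S ∈ 𝓝 (x₂ t₀, P₂ t₀) := by rw [← hx0, ← hP0]; exact hS
    filter_upwards [Ioo_mem_nhds ht₀.1 ht₀.2, hc.eventually hS'] with t ht1 ht2
    exact ⟨(hP₂ t ht1).2.2, ht2⟩
  have heq := ODE_solution_unique_of_eventually (v := fun _ => field G) (s := fun _ => S)
    (K := K) (f := fun t => (x₁ t, P₁ t)) (g := fun t => (x₂ t, P₂ t)) (t₀ := t₀)
    (Eventually.of_forall fun _ => hLip) hev₁ hev₂ (by simp [hx0, hP0])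
  filter_upwards [heq] with t ht
  exact congrArg Prod.fst ht

end Vale.Agent.P216.Local
end
end

section

section

set_option maxSynthPendingDepth 3
set_option linter.unusedSectionVars false

open Set Filter Topology MeasureTheory Bundle Manifold
open scoped NNReal ENNReal ContDiff

namespace Vale.Agent.P216.Chart

variable {E : Type*} [NormedAddCommGroup E] [NormedSpace ℝ E] [FiniteDimensional ℝ E]
  {M : Type*} [MetricSpace M] [ChartedSpace E M] [IsManifold 𝓘(ℝ, E) ∞ M]
  [RiemannianBundle (fun (x : M) ↦ TangentSpace 𝓘(ℝ, E) x)]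
  [IsContMDiffRiemannianBundle 𝓘(ℝ, E) ∞ E (fun (x : M) ↦ TangentSpace 𝓘(ℝ, E) x)]
  [IsRiemannianManifold 𝓘(ℝ, E) M]

/-- inverse chart -/
noncomputable def psi (p : M) : E → M := (extChartAt 𝓘(ℝ, E) p).symm

/-- the chart -/
noncomputable def phi (p : M) : M → E := extChartAt 𝓘(ℝ, E) p

variable (E) in
/-- domain of the inverse chart -/
def dom (p : M) : Set E := (extChartAt 𝓘(ℝ, E) p).target

noncomputable def Dpsi (p : M) (z : E) : E →L[ℝ] TangentSpace 𝓘(ℝ, E) (psi p z) :=
  mfderiv 𝓘(ℝ, E) 𝓘(ℝ, E) (psi p) z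

set_option backward.isDefEq.respectTransparency false in
noncomputable def metric (p : M) (z : E) : E →L[ℝ] E →L[ℝ] ℝ :=
  (innerSL ℝ (E := TangentSpace 𝓘(ℝ, E) (psi p z))).bilinearComp (Dpsi p z) (Dpsi p z)

set_option backward.isDefEq.respectTransparency false in
lemma metric_apply (p : M) (z : E) (v w : E) :
    metric p z v w = inner ℝ (Dpsi p z v) (Dpsi p z w) := by
  simp only [metric, ContinuousLinearMap.bilinearComp_apply, coe_innerSL_apply]

lemma metric_self (p : M) (z : E) (v : E) : metric p z v v = ‖Dpsi p z v‖ ^ 2 := by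
  rw [metric_apply, real_inner_self_eq_norm_sq]

lemma isOpen_dom (p : M) : IsOpen (dom E p) := isOpen_extChartAt_target p

lemma psi_contMDiffOn (p : M) : ContMDiffOn 𝓘(ℝ, E) 𝓘(ℝ, E) ∞ (psi p) (dom E p) :=
  contMDiffOn_extChartAt_symm p

lemma psi_mdiffAt (p : M) {z : E} (hz : z ∈ dom E p) :
    MDifferentiableAt 𝓘(ℝ, E) 𝓘(ℝ, E) (psi p) z :=
  ((psi_contMDiffOn p).contMDiffAt ((isOpen_dom (E := E) p).mem_nhds hz)).mdifferentiableAt (by simp)

lemma mem_source_psi (p : M) {z : E} (hz : z ∈ dom E p) :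
    psi p z ∈ (extChartAt 𝓘(ℝ, E) p).source :=
  (extChartAt 𝓘(ℝ, E) p).map_target hz

lemma phi_psi (p : M) {z : E} (hz : z ∈ dom E p) : phi p (psi p z) = z :=
  (extChartAt 𝓘(ℝ, E) p).right_inv hz

lemma section_contMDiffOn (p : M) (v : E) :
    ContMDiffOn 𝓘(ℝ, E) (𝓘(ℝ, E).prod 𝓘(ℝ, E)) ∞
      (fun z => (⟨psi p z, Dpsi p z v⟩ : TotalSpace E (fun (x : M) ↦ TangentSpace 𝓘(ℝ, E) x)))
      (dom E p) := by
  have h1 := (psi_contMDiffOn p).contMDiffOn_tangentMapWithin (m := ∞) (by simp)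
    (isOpen_dom (E := E) p).uniqueMDiffOn
  have h2 : ContMDiffOn 𝓘(ℝ, E) 𝓘(ℝ, E).tangent ∞
      (fun z => (⟨z, v⟩ : TangentBundle 𝓘(ℝ, E) E)) (dom E p) := by
    have : ContDiffOn ℝ ∞ (fun _ : E => v) (dom E p) := contDiffOn_const
    exact contMDiffOn_vectorSpace_iff_contDiffOn.2 this
  have h3 := h1.comp h2 (fun z hz => hz)
  refine h3.congr fun z hz => ?_
  simp only [Function.comp_apply, tangentMapWithin, Dpsi]
  rw [mfderivWithin_of_isOpen (isOpen_dom (E := E) p) hz]
  rfl

lemma metric_contDiffOn (p : M) : ContDiffOn ℝ ∞ (metric p) (dom E p) := by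
  rw [contDiffOn_clm_apply]
  intro v
  rw [contDiffOn_clm_apply]
  intro w
  have h1 := section_contMDiffOn p v
  have h2 := section_contMDiffOn p w
  have h3 := ContMDiffOn.inner_bundle (IB := 𝓘(ℝ, E)) (F := E)
    (E := fun (x : M) ↦ TangentSpace 𝓘(ℝ, E) x) (b := psi p)
    (v := fun z => Dpsi p z v) (w := fun z => Dpsi p z w) h1 h2
  rw [contMDiffOn_iff_contDiffOn] at h3
  refine h3.congr fun z hz => ?_
  exact metric_apply p z v w

lemma mfderiv_phi_Dpsi (p : M) {z : E} (hz : z ∈ dom E p) (v : E) :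
    mfderiv 𝓘(ℝ, E) 𝓘(ℝ, E) (phi (E := E) p) (psi p z) (Dpsi p z v) = v := by
  have h1 : MDifferentiableAt 𝓘(ℝ, E) 𝓘(ℝ, E) (phi (E := E) p) (psi p z) := by
    refine mdifferentiableAt_extChartAt ?_
    have := mem_source_psi p hz
    rwa [extChartAt_source] at this
  have h2 := psi_mdiffAt p hz
  have h3 : mfderiv 𝓘(ℝ, E) 𝓘(ℝ, E) (phi p ∘ psi p) z =
      (mfderiv 𝓘(ℝ, E) 𝓘(ℝ, E) (phi (E := E) p) (psi p z)).comp
        (mfderiv 𝓘(ℝ, E) 𝓘(ℝ, E) (psi p) z) := mfderiv_comp z h1 h2
  have h4 : (phi p ∘ psi p : E → E) =ᶠ[𝓝 z] id := by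
    filter_upwards [(isOpen_dom (E := E) p).mem_nhds hz] with w hw using phi_psi p hw
  have h5 : mfderiv 𝓘(ℝ, E) 𝓘(ℝ, E) (phi p ∘ psi p : E → E) z =
      ContinuousLinearMap.id ℝ (TangentSpace 𝓘(ℝ, E) z) := by
    rw [h4.mfderiv_eq]
    exact mfderiv_id
  rw [h5] at h3
  exact (congrArg (fun L => L v) h3).symm

lemma Dpsi_ne_zero (p : M) {z : E} (hz : z ∈ dom E p) {v : E} (hv : v ≠ 0) :
    Dpsi p z v ≠ 0 := by
  intro h
  have := mfderiv_phi_Dpsi p hz v
  rw [h, map_zero] at this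
  exact hv this.symm

lemma metric_pos (p : M) {z : E} (hz : z ∈ dom E p) {v : E} (hv : v ≠ 0) :
    0 < metric p z v v := by
  rw [metric_self]
  have := norm_pos_iff.2 (Dpsi_ne_zero p hz hv)
  positivity

lemma metric_symm (p : M) (z : E) (v w : E) : metric p z v w = metric p z w v := by
  rw [metric_apply, metric_apply, real_inner_comm]

lemma sqrt_metric (p : M) (z v : E) : √(metric p z v v) = ‖Dpsi p z v‖ := by
  rw [metric_self, Real.sqrt_sq (norm_nonneg _)]

/-- Length of a curve given in the chart. -/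
lemma pathELength_chart (p : M) {σ : ℝ → E} {a b : ℝ} (hab : a < b)
    (hσ : ContDiffOn ℝ 1 σ (Icc a b))
    (hσd : ∀ t ∈ Icc a b, σ t ∈ dom E p) :
    pathELength 𝓘(ℝ, E) (psi p ∘ σ) a b =
      ∫⁻ t in Icc a b, ‖Dpsi p (σ t) (derivWithin σ (Icc a b) t)‖ₑ := by
  rw [pathELength_eq_lintegral_mfderivWithin_Icc]
  refine setLIntegral_congr_fun measurableSet_Icc fun t ht => ?_
  have h1 : MDifferentiableAt 𝓘(ℝ, E) 𝓘(ℝ, E) (psi p) (σ t) := psi_mdiffAt p (hσd t ht)
  have h2 : MDifferentiableWithinAt 𝓘(ℝ, ℝ) 𝓘(ℝ, E) σ (Icc a b) t :=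
    ((hσ.differentiableOn one_ne_zero) t ht).mdifferentiableWithinAt
  have h3 : mfderivWithin 𝓘(ℝ, ℝ) 𝓘(ℝ, E) (psi p ∘ σ) (Icc a b) t =
      (mfderiv 𝓘(ℝ, E) 𝓘(ℝ, E) (psi p) (σ t)).comp
        (mfderivWithin 𝓘(ℝ, ℝ) 𝓘(ℝ, E) σ (Icc a b) t) := by
    refine mfderiv_comp_mfderivWithin t h1 h2 ?_
    rw [uniqueMDiffWithinAt_iff_uniqueDiffWithinAt]
    exact uniqueDiffOn_Icc hab t ht
  have h4 : mfderivWithin 𝓘(ℝ, ℝ) 𝓘(ℝ, E) (psi p ∘ σ) (Icc a b) t 1 =
      (mfderiv 𝓘(ℝ, E) 𝓘(ℝ, E) (psi p) (σ t))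
        (mfderivWithin 𝓘(ℝ, ℝ) 𝓘(ℝ, E) σ (Icc a b) t 1) := congrArg (fun L => L 1) h3
  have h5 : (mfderivWithin 𝓘(ℝ, ℝ) 𝓘(ℝ, E) σ (Icc a b) t 1 : E) =
      derivWithin σ (Icc a b) t := by
    rw [mfderivWithin_eq_fderivWithin]
    rfl
  rw [h4]
  congr 1
  exact congrArg (fun w : E => Dpsi p (σ t) w) h5

/-- comparison of the norms at nearby points -/
lemma norm_compare (p : M) {y : E} (hy : y ∈ dom E p) {K : ℝ} (hK : 1 < K) :
    ∀ᶠ z in 𝓝 y, ∀ v, ‖Dpsi p z v‖ ≤ K * ‖Dpsi p y v‖ ∧ ‖Dpsi p y v‖ ≤ K * ‖Dpsi p z v‖ := by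
  have hm : ∃ m : ℝ, 0 < m ∧ ∀ v, m * ‖v‖ ^ 2 ≤ metric p y v v := by
    rcases subsingleton_or_nontrivial E with hE | hE
    · refine ⟨1, one_pos, fun v => ?_⟩
      have : v = 0 := Subsingleton.elim _ _
      simp [this]
    · have hcomp : IsCompact (Metric.sphere (0 : E) 1) := isCompact_sphere 0 1
      have hne : (Metric.sphere (0 : E) 1).Nonempty := NormedSpace.sphere_nonempty.2 zero_le_one
      have hcont : Continuous fun v => metric p y v v := by (clear * -; fun_prop)
      obtain ⟨v₀, hv₀, hmin⟩ := hcomp.exists_isMinOn hne hcont.continuousOn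
      have hv₀' : ‖v₀‖ = 1 := by simpa using hv₀
      have hv₀ne : v₀ ≠ 0 := by
        intro h0
        simp [h0] at hv₀'
      refine ⟨metric p y v₀ v₀, metric_pos p hy hv₀ne, fun v => ?_⟩
      rcases eq_or_ne v 0 with rfl | hv
      · simp
      · have hnorm : 0 < ‖v‖ := norm_pos_iff.2 hv
        have h1 : (‖v‖⁻¹ • v) ∈ Metric.sphere (0 : E) 1 := by
          simp [norm_smul, hnorm.ne']
        have h2 := hmin h1
        simp only [map_smul, smul_apply, smul_eq_mul, mem_ofPred_eq] at h2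
        have h3 : metric p y v v = ‖v‖ ^ 2 * (‖v‖⁻¹ * (‖v‖⁻¹ * metric p y v v)) := by
          field_simp
        rw [h3]
        nlinarith only [h2]
  obtain ⟨m, hmpos, hm⟩ := hm
  have hcont : ContinuousAt (metric p) y :=
    (metric_contDiffOn p).continuousOn.continuousAt ((isOpen_dom (E := E) p).mem_nhds hy)
  set δ : ℝ := m * (1 - (K ^ 2)⁻¹) with hδ
  have hK2 : 1 < K ^ 2 := by nlinarith only [hK]
  have hKinv : (K ^ 2)⁻¹ < 1 := inv_lt_one_of_one_lt₀ hK2
  have hδpos : 0 < δ := mul_pos hmpos (sub_pos.2 hKinv)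
  have h1 : ∀ᶠ z in 𝓝 y, dist (metric p z) (metric p y) < δ := Metric.tendsto_nhds.1 hcont _ hδpos
  filter_upwards [h1] with z hz v
  rw [dist_eq_norm] at hz
  have h2 := Local.bil_le (metric p z - metric p y) v v
  have h3 : (metric p z - metric p y) v v = metric p z v v - metric p y v v := by simp
  rw [h3] at h2
  have h4 := abs_le.1 h2
  have h5 : ‖metric p z - metric p y‖ * ‖v‖ * ‖v‖ ≤ (1 - (K ^ 2)⁻¹) * metric p y v v := by
    have e1 : ‖metric p z - metric p y‖ * ‖v‖ * ‖v‖ ≤ δ * ‖v‖ ^ 2 := by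
      nlinarith only [sq_nonneg ‖v‖, norm_nonneg v, hz]
    have e2 := hm v
    have e3 : δ * ‖v‖ ^ 2 = (1 - (K ^ 2)⁻¹) * (m * ‖v‖ ^ 2) := by rw [hδ]; ring
    rw [e3] at e1
    exact e1.trans (mul_le_mul_of_nonneg_left e2 (sub_pos.2 hKinv).le)
  rw [metric_self, metric_self] at h4
  rw [metric_self] at h5
  set A := ‖Dpsi p z v‖ with hA
  set B := ‖Dpsi p y v‖ with hB
  have hA0 : 0 ≤ A := norm_nonneg _
  have hB0 : 0 ≤ B := norm_nonneg _
  have hKpos : 0 < K := by linarith only [hK]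
  have hi : (K ^ 2)⁻¹ * K ^ 2 = 1 := inv_mul_cancel₀ (by positivity)
  have hipos : 0 < (K ^ 2)⁻¹ := by positivity
  constructor
  · have h6 : A ^ 2 ≤ (K * B) ^ 2 := by
      have e1 : A ^ 2 ≤ (2 - (K ^ 2)⁻¹) * B ^ 2 := by linarith only [h5, h4]
      have e2 : 2 - (K ^ 2)⁻¹ ≤ K ^ 2 := by
        nlinarith only [sq_nonneg (K ^ 2 - 1), hi, hipos]
      calc A ^ 2 ≤ (2 - (K ^ 2)⁻¹) * B ^ 2 := e1
        _ ≤ K ^ 2 * B ^ 2 := mul_le_mul_of_nonneg_right e2 (sq_nonneg _)
        _ = (K * B) ^ 2 := by ring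
    exact le_of_sq_le_sq h6 (by (clear * - hK; positivity))
  · have h6 : B ^ 2 ≤ (K * A) ^ 2 := by
      have e1 : (K ^ 2)⁻¹ * B ^ 2 ≤ A ^ 2 := by linarith only [h5, h4]
      calc B ^ 2 = K ^ 2 * ((K ^ 2)⁻¹ * B ^ 2) := by
            rw [← mul_assoc, mul_comm (K ^ 2), hi, one_mul]
        _ ≤ K ^ 2 * A ^ 2 := mul_le_mul_of_nonneg_left e1 (by positivity)
        _ = (K * A) ^ 2 := by ring
    exact le_of_sq_le_sq h6 (by (clear * - hK; positivity))

lemma edist_psi_le (p : M) {σ : ℝ → E} (hσ : ContDiffOn ℝ 1 σ (Icc 0 1))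
    (hσd : ∀ t ∈ Icc (0 : ℝ) 1, σ t ∈ dom E p) :
    edist (psi p (σ 0)) (psi p (σ 1)) ≤
      ∫⁻ t in Icc (0 : ℝ) 1, ‖Dpsi p (σ t) (derivWithin σ (Icc 0 1) t)‖ₑ := by
  rw [IsRiemannianManifold.out (I := 𝓘(ℝ, E)) (psi p (σ 0)) (psi p (σ 1)),
    ← pathELength_chart p zero_lt_one hσ hσd]
  refine riemannianEDist_le_pathELength ?_ rfl rfl zero_le_one
  have h1 : ContMDiffOn 𝓘(ℝ, ℝ) 𝓘(ℝ, E) 1 σ (Icc 0 1) := hσ.contMDiffOn
  exact ((psi_contMDiffOn p).of_le (by simp only [WithTop.one_le_coe, le_top])).comp h1 hσd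

lemma upper (p : M) {y : E} (hy : y ∈ dom E p) {K : ℝ} (hK : 1 < K) :
    ∀ᶠ q : E × E in 𝓝 (y, y),
      dist (psi p q.1) (psi p q.2) ≤ K * √(metric p y (q.1 - q.2) (q.1 - q.2)) := by
  have hK0 : 0 < K := by linarith only [hK]
  obtain ⟨r, hr, h1⟩ := Metric.eventually_nhds_iff_ball.1
    ((norm_compare p hy hK).and ((isOpen_dom (E := E) p).mem_nhds hy))
  filter_upwards [Metric.ball_mem_nhds (y, y) hr] with q hq
  rw [← ball_prod_same] at hq
  obtain ⟨hq1, hq2⟩ := hq
  set σ : ℝ → E := fun t => q.1 + t • (q.2 - q.1) with hσdef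
  have hσC : ContDiffOn ℝ 1 σ (Icc 0 1) := by
    have : ContDiff ℝ 1 σ := by
      rw [hσdef]
      fun_prop
    exact this.contDiffOn
  have hσd : ∀ t, HasDerivAt σ (q.2 - q.1) t := fun t => by
    simpa [hσdef] using ((hasDerivAt_id t).smul_const (q.2 - q.1)).const_add q.1
  have hσb : ∀ t ∈ Icc (0 : ℝ) 1, σ t ∈ Metric.ball y r := fun t ht => by
    have h2 : σ t = (1 - t) • q.1 + t • q.2 := by
      simp only [hσdef, smul_sub, sub_smul, one_smul]
      abel
    rw [h2]
    exact (convex_ball y r) hq1 hq2 (by linarith only [ht.2, ht]) ht.1 (by ring)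
  have h3 := edist_psi_le p hσC (fun t ht => (h1 _ (hσb t ht)).2)
  have e0 : σ 0 = q.1 := by simp [hσdef]
  have e1 : σ 1 = q.2 := by simp [hσdef]
  rw [e0, e1] at h3
  have h4 : ∫⁻ t in Icc (0 : ℝ) 1, ‖Dpsi p (σ t) (derivWithin σ (Icc 0 1) t)‖ₑ ≤
      ∫⁻ _ in Icc (0 : ℝ) 1, ENNReal.ofReal (K * ‖Dpsi p y (q.2 - q.1)‖) := by
    refine setLIntegral_mono' measurableSet_Icc fun t ht => ?_
    have h5 : derivWithin σ (Icc 0 1) t = q.2 - q.1 :=
      (hσd t).hasDerivWithinAt.derivWithin (uniqueDiffOn_Icc zero_lt_one t ht)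
    rw [h5, ← ofReal_norm]
    exact ENNReal.ofReal_le_ofReal ((h1 _ (hσb t ht)).1 _).1
  have h5 := h3.trans h4
  rw [setLIntegral_const, Real.volume_Icc, sub_zero, ENNReal.ofReal_one, mul_one, edist_dist,
    ENNReal.ofReal_le_ofReal_iff (by positivity)] at h5
  rw [sqrt_metric, ← neg_sub q.2 q.1, map_neg, norm_neg]
  exact h5

lemma nhds_chart (p : M) {y : E} (hy : y ∈ dom E p) {r : ℝ} (hr : 0 < r) :
    ∃ ε : ℝ, 0 < ε ∧ ∀ m : M, dist m (psi p y) < ε →
      m ∈ (extChartAt 𝓘(ℝ, E) p).source ∧ phi p m ∈ Metric.ball y r := by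
  have hsrc : psi p y ∈ (extChartAt 𝓘(ℝ, E) p).source := mem_source_psi p hy
  have h1 : (extChartAt 𝓘(ℝ, E) p).source ∈ 𝓝 (psi p y) :=
    (isOpen_extChartAt_source p).mem_nhds hsrc
  have h2 : ContinuousAt (extChartAt 𝓘(ℝ, E) p) (psi p y) :=
    (continuousOn_extChartAt p).continuousAt h1
  have h3 : ∀ᶠ m in 𝓝 (psi p y), phi p m ∈ Metric.ball y r := by
    have h4 : Metric.ball y r ∈ 𝓝 (extChartAt 𝓘(ℝ, E) p (psi p y)) := by
      have : extChartAt 𝓘(ℝ, E) p (psi p y) = y := phi_psi p hy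
      rw [this]
      exact Metric.ball_mem_nhds y hr
    exact h2.eventually h4
  obtain ⟨ε, hε, h5⟩ := Metric.eventually_nhds_iff.1 ((eventually_mem_set.2 h1).and h3)
  exact ⟨ε, hε, fun m hm => h5 hm⟩

lemma psi_phi (p : M) {m : M} (hm : m ∈ (extChartAt 𝓘(ℝ, E) p).source) :
    psi p (phi (E := E) p m) = m := (extChartAt 𝓘(ℝ, E) p).left_inv hm

lemma phi_mem_dom (p : M) {m : M} (hm : m ∈ (extChartAt 𝓘(ℝ, E) p).source) :
    phi (E := E) p m ∈ dom E p := (extChartAt 𝓘(ℝ, E) p).map_source hm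

lemma lower (p : M) {y : E} (hy : y ∈ dom E p) {K : ℝ} (hK : 1 < K) :
    ∀ᶠ q : E × E in 𝓝 (y, y),
      √(metric p y (q.1 - q.2) (q.1 - q.2)) ≤ K * dist (psi p q.1) (psi p q.2) := by
  have hK0 : 0 < K := by linarith only [hK]
  obtain ⟨r, hr, h1⟩ := Metric.eventually_nhds_iff_ball.1 (norm_compare p hy hK)
  obtain ⟨ε, hε, h2⟩ := nhds_chart p hy hr
  have hpc : ContinuousAt (psi p) y :=
    (psi_contMDiffOn (E := E) p).continuousOn.continuousAt ((isOpen_dom (E := E) p).mem_nhds hy)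
  have h3 : ∀ᶠ z in 𝓝 y, dist (psi p z) (psi p y) < ε / 3 :=
    Metric.tendsto_nhds.1 hpc _ (by positivity)
  have h4 : ∀ᶠ z in 𝓝 y, z ∈ dom E p := (isOpen_dom (E := E) p).mem_nhds hy
  have h34 := (h3.and h4).prod_nhds (h3.and h4)
  filter_upwards [h34] with q hq
  obtain ⟨⟨hq1, hq1'⟩, ⟨hq2, hq2'⟩⟩ := hq
  rw [sqrt_metric]
  set d := dist (psi p q.1) (psi p q.2) with hd
  have hd0 : 0 ≤ d := dist_nonneg
  have hdlt : d < 2 * ε / 3 := by
    have := dist_triangle_right (psi p q.1) (psi p q.2) (psi p y)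
    linarith only [hq1, hq2, this]
  set u := q.1 - q.2 with hu
  rcases eq_or_ne u 0 with hu0 | hu0
  · rw [hu0, map_zero, norm_zero]
    (clear * - hK; positivity)
  have hNu : 0 < ‖Dpsi p y u‖ := norm_pos_iff.2 (Dpsi_ne_zero p hy hu0)
  have key : ∀ d' : ℝ, d < d' → d' < 2 * ε / 3 → ‖Dpsi p y u‖ ≤ K * d' := by
    intro d' hd' hd'2
    have hd'0 : 0 < d' := by linarith only [hd0, hd']
    have h5 : riemannianEDist 𝓘(ℝ, E) (psi p q.1) (psi p q.2) < ENNReal.ofReal d' := by
      rw [← IsRiemannianManifold.out (I := 𝓘(ℝ, E)) (psi p q.1) (psi p q.2), edist_dist]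
      exact (ENNReal.ofReal_lt_ofReal_iff hd'0).2 hd'
    obtain ⟨γ, hγ0, hγ1, hγC, hγL⟩ := exists_lt_of_riemannianEDist_lt h5
    have hγdist : ∀ t ∈ Icc (0 : ℝ) 1, dist (γ t) (psi p y) < ε := by
      intro t ht
      have h6 : edist (psi p q.1) (γ t) < ENNReal.ofReal d' := by
        rw [IsRiemannianManifold.out (I := 𝓘(ℝ, E)) (psi p q.1) (γ t)]
        refine lt_of_le_of_lt ?_ hγL
        refine (riemannianEDist_le_pathELength
          (hγC.mono (Icc_subset_Icc_right ht.2)) hγ0 rfl ht.1).trans ?_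
        exact pathELength_mono le_rfl ht.2
      rw [edist_dist, ENNReal.ofReal_lt_ofReal_iff hd'0] at h6
      have h7 := dist_triangle (γ t) (psi p q.1) (psi p y)
      rw [dist_comm (γ t) (psi p q.1)] at h7
      linarith only [hq1, hd'2, h6, h7]
    set σ : ℝ → E := fun t => phi p (γ t) with hσ
    have hσb : ∀ t ∈ Icc (0 : ℝ) 1, σ t ∈ Metric.ball y r := fun t ht =>
      (h2 _ (hγdist t ht)).2
    have hγs : ∀ t ∈ Icc (0 : ℝ) 1, γ t ∈ (extChartAt 𝓘(ℝ, E) p).source := fun t ht =>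
      (h2 _ (hγdist t ht)).1
    have hσdom : ∀ t ∈ Icc (0 : ℝ) 1, σ t ∈ dom E p := fun t ht => phi_mem_dom p (hγs t ht)
    have hσC : ContDiffOn ℝ 1 σ (Icc 0 1) := by
      rw [← contMDiffOn_iff_contDiffOn]
      have h6 : ContMDiffOn 𝓘(ℝ, E) 𝓘(ℝ, E) 1 (extChartAt 𝓘(ℝ, E) p) (chartAt E p).source :=
        contMDiffOn_extChartAt
      refine h6.comp hγC fun t ht => ?_
      have := hγs t ht
      rwa [extChartAt_source] at this
    have hlen : pathELength 𝓘(ℝ, E) γ 0 1 =
        ∫⁻ t in Icc (0 : ℝ) 1, ‖Dpsi p (σ t) (derivWithin σ (Icc 0 1) t)‖ₑ := by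
      rw [← pathELength_chart p zero_lt_one hσC hσdom]
      exact pathELength_congr fun t ht => (psi_phi p (hγs t ht)).symm
    set ℓ : E →L[ℝ] ℝ := ‖Dpsi p y u‖⁻¹ • metric p y u with hℓ
    have hℓle : ∀ w, |ℓ w| ≤ ‖Dpsi p y w‖ := by
      intro w
      rw [hℓ, smul_apply, smul_eq_mul, abs_mul, abs_of_pos (inv_pos.2 hNu), inv_mul_le_iff₀ hNu,
        metric_apply]
      exact abs_real_inner_le_norm _ _
    have hℓu : ℓ u = ‖Dpsi p y u‖ := by
      rw [hℓ, smul_apply, smul_eq_mul, metric_self]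
      field_simp
    have hfC : ContDiffOn ℝ 1 (fun t => ℓ (σ t)) (Icc 0 1) := ℓ.contDiff.comp_contDiffOn hσC
    have h8 := enorm_sub_le_lintegral_derivWithin_Icc_of_contDiffOn_Icc hfC zero_le_one
    have h9 : ∫⁻ t in Icc (0 : ℝ) 1, ‖derivWithin (fun t => ℓ (σ t)) (Icc 0 1) t‖ₑ ≤
        ∫⁻ t in Icc (0 : ℝ) 1, ENNReal.ofReal K *
          ‖Dpsi p (σ t) (derivWithin σ (Icc 0 1) t)‖ₑ := by
      refine setLIntegral_mono' measurableSet_Icc fun t ht => ?_
      have h10 : derivWithin (fun t => ℓ (σ t)) (Icc 0 1) t = ℓ (derivWithin σ (Icc 0 1) t) := by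
        have e1 := ((hσC.differentiableOn one_ne_zero) t ht).hasDerivWithinAt
        exact (ℓ.hasFDerivAt.comp_hasDerivWithinAt t e1).derivWithin
          (uniqueDiffOn_Icc zero_lt_one t ht)
      rw [h10, ← ofReal_norm, ← ofReal_norm, ← ENNReal.ofReal_mul hK0.le]
      refine ENNReal.ofReal_le_ofReal ?_
      rw [Real.norm_eq_abs]
      exact (hℓle _).trans ((h1 _ (hσb t ht)) _).2
    have h11 : ‖ℓ (σ 1) - ℓ (σ 0)‖ₑ ≤ ENNReal.ofReal (K * d') := by
      refine (h8.trans h9).trans ?_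
      rw [lintegral_const_mul' _ _ ENNReal.ofReal_ne_top, ← hlen, ENNReal.ofReal_mul hK0.le]
      (clear * - hγL; gcongr)
    have hσ0 : σ 0 = q.1 := by
      simp only [hσ, hγ0]
      exact phi_psi p hq1'
    have hσ1 : σ 1 = q.2 := by
      simp only [hσ, hγ1]
      exact phi_psi p hq2'
    rw [hσ0, hσ1, ← map_sub, ← neg_sub, ← hu, map_neg, enorm_neg, hℓu, ← ofReal_norm,
      ENNReal.ofReal_le_ofReal_iff (by (clear * - hK hd'0; positivity)), norm_norm] at h11
    exact h11
  have hlim : Tendsto (fun d' : ℝ => K * d') (𝓝[>] d) (𝓝 (K * d)) :=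
    (tendsto_id.const_mul K).mono_left nhdsWithin_le_nhds
  refine ge_of_tendsto hlim ?_
  filter_upwards [Ioo_mem_nhdsGT hdlt] with d' hd' using key d' hd'.1 hd'.2

/-- The chart gives a local metric in the sense of `Local.lean`. -/
theorem localMetric (p : M) : Local.LocalMetric (dom E p) (metric p) (psi p) where
  isOpen := isOpen_dom (E := E) p
  smooth := (metric_contDiffOn p).of_le ENat.LEInfty.out
  symm := fun _ _ _ _ => metric_symm p _ _ _
  pos := fun _ hy _ hv => metric_pos p hy hv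
  upper := fun _ hy _ hK => upper p hy hK
  lower := fun _ hy _ hK => lower p hy hK

end Vale.Agent.P216.Chart
end
end

section

section

set_option maxSynthPendingDepth 3
set_option linter.unusedSectionVars false

open Set Filter Topology MeasureTheory Bundle Manifold
open scoped NNReal ENNReal ContDiff

namespace Vale.Agent.P216

/-- `c` locally realises the distance with constant speed `v`. -/
def LocMin {M : Type*} [MetricSpace M] (c : ℝ → M) (v : ℝ) : Prop :=
  ∀ t : ℝ, ∃ ε : ℝ, 0 < ε ∧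
    ∀ s₁ s₂ : ℝ, |s₁ - t| < ε → |s₂ - t| < ε → dist (c s₁) (c s₂) = v * |s₁ - s₂|

lemma LocMin.continuous {M : Type*} [MetricSpace M] {c : ℝ → M} {v : ℝ} (h : LocMin c v) :
    Continuous c := by
  rw [continuous_iff_continuousAt]
  intro t
  obtain ⟨ε, hε, h1⟩ := h t
  rw [ContinuousAt, tendsto_iff_dist_tendsto_zero]
  have h2 : ∀ᶠ s in 𝓝 t, dist (c s) (c t) = v * |s - t| := by
    filter_upwards [Metric.ball_mem_nhds t hε] with s hs
    refine h1 s t ?_ (by simpa using hε)
    rwa [Metric.mem_ball, Real.dist_eq] at hs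
  have h3 : Tendsto (fun s => v * |s - t|) (𝓝 t) (𝓝 0) := by
    have : Continuous fun s : ℝ => v * |s - t| := by fun_prop
    have h4 := this.tendsto t
    simpa using h4
  exact h3.congr' (h2.mono fun s hs => hs.symm)

variable {E : Type*} [NormedAddCommGroup E] [NormedSpace ℝ E] [FiniteDimensional ℝ E]
  {M : Type*} [MetricSpace M] [ChartedSpace E M] [IsManifold 𝓘(ℝ, E) ∞ M]
  [RiemannianBundle (fun (x : M) ↦ TangentSpace 𝓘(ℝ, E) x)]
  [IsContMDiffRiemannianBundle 𝓘(ℝ, E) ∞ E (fun (x : M) ↦ TangentSpace 𝓘(ℝ, E) x)]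
  [IsRiemannianManifold 𝓘(ℝ, E) M]

open Chart Local in
variable (E) in
lemma LocMin.exists_isMin {c : ℝ → M} {v t₀ : ℝ} (hv : 0 < v) (h : LocMin c v) {p : M}
    (hp : c t₀ = p) {ρ : ℝ} (hρ : 0 < ρ) :
    ∃ δ : ℝ, 0 < δ ∧ ∀ δ' : ℝ, 0 < δ' → δ' ≤ δ →
      IsMin (psi (E := E) p) (fun t => phi (E := E) p (c t)) (phi (E := E) p p) ρ
        (t₀ - δ') (t₀ + δ') v ∧
      ∀ t ∈ Icc (t₀ - δ') (t₀ + δ'), psi (E := E) p (phi (E := E) p (c t)) = c t := by
  have hps : p ∈ (extChartAt 𝓘(ℝ, E) p).source := mem_extChartAt_source p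
  have hpd : phi (E := E) p p ∈ dom E p := phi_mem_dom p hps
  obtain ⟨ε, hε, h1⟩ := nhds_chart p hpd hρ
  rw [psi_phi p hps] at h1
  obtain ⟨ε₁, hε₁, h2⟩ := h t₀
  have hcont : ∀ᶠ t in 𝓝 t₀, dist (c t) p < ε := by
    have := h.continuous.continuousAt (x := t₀)
    rw [← hp]
    exact Metric.tendsto_nhds.1 this _ hε
  obtain ⟨ε₂, hε₂, h3⟩ := Metric.eventually_nhds_iff.1 hcont
  refine ⟨min ε₁ ε₂ / 2, by (clear * - hε₁ hε₂; positivity), fun δ' hδ' hle => ?_⟩
  have hm1 : min ε₁ ε₂ ≤ ε₁ := min_le_left _ _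
  have hm2 : min ε₁ ε₂ ≤ ε₂ := min_le_right _ _
  have hm0 : 0 < min ε₁ ε₂ := lt_min hε₁ hε₂
  have hsrc : ∀ t ∈ Icc (t₀ - δ') (t₀ + δ'),
      c t ∈ (extChartAt 𝓘(ℝ, E) p).source ∧ phi p (c t) ∈ Metric.ball (phi (E := E) p p) ρ := by
    intro t ht
    refine h1 _ (h3 ?_)
    rw [Real.dist_eq, abs_lt]
    constructor <;> linarith only [ht.1, hδ', hle, hm2, ht.2]
  refine ⟨⟨by linarith only [hδ'], hv, fun t ht => (hsrc t ht).2, fun s hs t ht => ?_⟩,
    fun t ht => psi_phi p (hsrc t ht).1⟩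
  rw [psi_phi p (hsrc s hs).1, psi_phi p (hsrc t ht).1]
  refine h2 s t ?_ ?_ <;> rw [abs_lt] <;> constructor <;> linarith only [hs.1, hs.2, ht.1, ht.2, hδ', hle, hm1, hs, ht]

open Chart Local in
variable (E) in
include E in
/-- Unique continuation for geodesics of a smooth Riemannian metric. -/
theorem unique_continuation {c₁ c₂ : ℝ → M} {v : ℝ} (hv : 0 < v) (h₁ : LocMin c₁ v)
    (h₂ : LocMin c₂ v) (hS : ∃ t, c₁ =ᶠ[𝓝 t] c₂) : c₁ = c₂ := by
  set S : Set ℝ := {t | c₁ =ᶠ[𝓝 t] c₂} with hSdef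
  have hopen : IsOpen S := by
    rw [isOpen_iff_mem_nhds]
    intro t ht
    exact eventually_eventually_nhds.2 ht
  have hclosed : IsClosed S := by
    rw [← closure_subset_iff_isClosed]
    intro t₀ ht₀
    have hfreq : ∃ᶠ t in 𝓝 t₀, t ∈ S := mem_closure_iff_frequently.1 ht₀
    have heq0 : c₁ t₀ = c₂ t₀ :=
      tendsto_nhds_unique_of_frequently_eq h₁.continuous.continuousAt h₂.continuous.continuousAt
        (hfreq.mono fun t ht => Filter.EventuallyEq.eq_of_nhds ht)
    set p := c₁ t₀ with hp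
    have hps : p ∈ (extChartAt 𝓘(ℝ, E) p).source := mem_extChartAt_source p
    have hpd : phi (E := E) p p ∈ dom E p := phi_mem_dom p hps
    obtain ⟨ρ, C, hB⟩ := (localMetric (E := E) p).exists_goodBall hpd
    obtain ⟨δ₁, hδ₁, hm₁⟩ := h₁.exists_isMin E hv (p := p) (t₀ := t₀) rfl hB.rpos
    obtain ⟨δ₂, hδ₂, hm₂⟩ := h₂.exists_isMin E hv (p := p) (t₀ := t₀) heq0.symm hB.rpos
    have hδ : 0 < min δ₁ δ₂ := lt_min hδ₁ hδ₂
    obtain ⟨hx₁, hr₁⟩ := hm₁ (min δ₁ δ₂) hδ (min_le_left _ _)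
    obtain ⟨hx₂, hr₂⟩ := hm₂ (min δ₁ δ₂) hδ (min_le_right _ _)
    have key := IsMin.unique (localMetric (E := E) p) hB hx₁ hx₂ (t₀ := t₀)
      ⟨by linarith only [hδ], by linarith only [hδ]⟩ (hfreq.mono fun t ht => by
        have ht' : c₁ =ᶠ[𝓝 t] c₂ := ht
        filter_upwards [ht'] with s hs
        rw [hs])
    have hnhds : Icc (t₀ - min δ₁ δ₂) (t₀ + min δ₁ δ₂) ∈ 𝓝 t₀ :=
      Icc_mem_nhds (by linarith only [hδ]) (by linarith only [hδ])
    show c₁ =ᶠ[𝓝 t₀] c₂
    filter_upwards [key, hnhds] with t ht1 ht2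
    rw [← hr₁ t ht2, ← hr₂ t ht2, ht1]
  have huniv : S = univ := IsClopen.eq_univ ⟨hclosed, hopen⟩ hS
  ext t
  have : t ∈ S := huniv ▸ mem_univ t
  exact Filter.EventuallyEq.eq_of_nhds this

end Vale.Agent.P216
end
end

section

section

/-!
Local group-valued cocycles on a metric space and their integration along curves.
-/

namespace Vale.Agent.P216

/-- A local cocycle with values in a group. -/
structure LocalCocycle (M Γ : Type*) [MetricSpace M] [Group Γ] where
  r : ℝ
  r_pos : 0 < r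
  coc : M → M → Γ
  mul' : ∀ x y z, dist x y < r → dist y z < r → dist x z < r → coc x y * coc y z = coc x z

namespace LocalCocycle

variable {M Γ : Type*} [MetricSpace M] [Group Γ] (S : LocalCocycle M Γ)

lemma self_eq (x : M) : S.coc x x = 1 := by
  have h := S.mul' x x x (by simpa using S.r_pos) (by simpa using S.r_pos) (by simpa using S.r_pos)
  simpa using h

lemma mul_symm {x y : M} (h : dist x y < S.r) : S.coc x y * S.coc y x = 1 := by
  rw [S.mul' x y x h (by rwa [dist_comm]) (by simpa using S.r_pos), S.self_eq]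

lemma inv_eq {x y : M} (h : dist x y < S.r) : (S.coc x y)⁻¹ = S.coc y x :=
  inv_eq_of_mul_eq_one_right (S.mul_symm h)

/-- The product of the cocycle along a sequence of points. -/
def P (x : ℕ → M) : ℕ → Γ
  | 0 => 1
  | n + 1 => P x n * S.coc (x n) (x (n + 1))

@[simp] lemma P_zero (x : ℕ → M) : S.P x 0 = 1 := rfl
lemma P_succ (x : ℕ → M) (n : ℕ) : S.P x (n + 1) = S.P x n * S.coc (x n) (x (n + 1)) := rfl

lemma P_congr {x y : ℕ → M} {n : ℕ} (h : ∀ i ≤ n, x i = y i) : S.P x n = S.P y n := by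
  induction n with
  | zero => rfl
  | succ n ih =>
    rw [P_succ, P_succ, ih (fun i hi => h i (by omega)), h n (by omega), h (n + 1) le_rfl]

/-- Two chains with small steps which are pointwise close have conjugate products. -/
lemma P_close {x y : ℕ → M} {n : ℕ} (hx : ∀ i < n, dist (x i) (x (i + 1)) < S.r / 2)
    (hy : ∀ i < n, dist (y i) (y (i + 1)) < S.r / 2)
    (hxy : ∀ i ≤ n, dist (x i) (y i) < S.r / 2) :
    S.P y n = (S.coc (x 0) (y 0))⁻¹ * S.P x n * S.coc (x n) (y n) := by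
  induction n with
  | zero => simp
  | succ n ih =>
    have hr := S.r_pos
    have h1 := hx n (by omega)
    have h2 := hy n (by omega)
    have h3 := hxy n (by omega)
    have h4 := hxy (n + 1) le_rfl
    rw [P_succ, P_succ, ih (fun i hi => hx i (by omega)) (fun i hi => hy i (by omega))
      (fun i hi => hxy i (by omega))]
    have e1 : S.coc (x n) (y n) * S.coc (y n) (y (n + 1)) = S.coc (x n) (y (n + 1)) := by
      apply S.mul'
      · linarith only [hr, h3]
      · linarith only [hr, h2]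
      · linarith only [dist_triangle (x n) (y n) (y (n + 1)), h2, h3]
    have e2 : S.coc (x n) (x (n + 1)) * S.coc (x (n + 1)) (y (n + 1)) = S.coc (x n) (y (n + 1)) := by
      apply S.mul'
      · linarith only [hr, h1]
      · linarith only [hr, h4]
      · linarith only [dist_triangle (x n) (x (n + 1)) (y (n + 1)), h1, h4]
    rw [mul_assoc, e1, ← e2]
    group

lemma P_isConj {x y : ℕ → M} {n : ℕ} (hx : ∀ i < n, dist (x i) (x (i + 1)) < S.r / 2)
    (hy : ∀ i < n, dist (y i) (y (i + 1)) < S.r / 2)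
    (hxy : ∀ i ≤ n, dist (x i) (y i) < S.r / 2) (hx0 : x n = x 0) (hy0 : y n = y 0) :
    IsConj (S.P x n) (S.P y n) := by
  rw [S.P_close hx hy hxy, hx0, hy0, isConj_iff]
  exact ⟨(S.coc (x 0) (y 0))⁻¹, by group⟩

/-- A function on the integers with prescribed ratios. -/
lemma exists_int_integral (u : ℤ → Γ) :
    ∃ H : ℤ → Γ, H 0 = 1 ∧ ∀ i, (H i)⁻¹ * H (i + 1) = u i := by
  let A : ℕ → Γ := fun n => Nat.rec 1 (fun n g => g * u n) n
  let B : ℕ → Γ := fun n => Nat.rec 1 (fun n g => g * (u (-(n : ℤ) - 1))⁻¹) n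
  have hA : ∀ n, A (n + 1) = A n * u n := fun n => rfl
  have hB : ∀ n, B (n + 1) = B n * (u (-(n : ℤ) - 1))⁻¹ := fun n => rfl
  refine ⟨fun i => if 0 ≤ i then A i.toNat else B (-i).toNat, by simp [A], fun i => ?_⟩
  beta_reduce
  rcases lt_trichotomy i (-1) with h | h | h
  · rw [if_neg (by omega), if_neg (by omega)]
    have e : (-i).toNat = (-(i + 1)).toNat + 1 := by omega
    rw [e, hB]
    have e2 : -(((-(i + 1)).toNat : ℕ) : ℤ) - 1 = i := by omega
    rw [e2]; group
  · subst h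
    rw [if_neg (by decide), if_pos (by decide)]
    have e : (-(-1 : ℤ)).toNat = 0 + 1 := by decide
    rw [e, hB]
    simp only [Nat.rec_zero, CharP.cast_eq_zero, neg_zero, zero_sub, Int.reduceNeg, one_mul, inv_inv, neg_add_cancel, Int.toNat_zero, mul_one, B, A]
  · rw [if_pos (by omega), if_pos (by omega)]
    have e : (i + 1).toNat = i.toNat + 1 := by omega
    rw [e, hA]
    have e2 : ((i.toNat : ℕ) : ℤ) = i := by omega
    rw [e2]; group

/-- `h` integrates the cocycle along the curve `c`. -/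
def IsLift (c : ℝ → M) (δ : ℝ) (h : ℝ → Γ) : Prop :=
  ∀ s t, |s - t| ≤ δ → (h s)⁻¹ * h t = S.coc (c s) (c t)

lemma exists_lift {c : ℝ → M} (hc : ∀ s t, dist (c s) (c t) ≤ |s - t|) {δ : ℝ} (hδ : 0 < δ)
    (hδr : 3 * δ < S.r) : ∃ h : ℝ → Γ, h 0 = 1 ∧ S.IsLift c δ h := by
  obtain ⟨H, H0, H1⟩ := exists_int_integral (fun i : ℤ => S.coc (c (i * δ)) (c ((i + 1 : ℤ) * δ)))
  have key : ∀ s t, |s - t| < S.r → dist (c s) (c t) < S.r := fun s t h => (hc s t).trans_lt h
  let h : ℝ → Γ := fun t => H ⌊t / δ⌋ * S.coc (c (⌊t / δ⌋ * δ)) (c t)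
  have bd : ∀ t : ℝ, (⌊t / δ⌋ : ℝ) * δ ≤ t ∧ t < (⌊t / δ⌋ : ℝ) * δ + δ := by
    intro t
    constructor
    · have := Int.floor_le (t / δ)
      rwa [le_div_iff₀ hδ] at this
    · have := Int.lt_floor_add_one (t / δ)
      rw [div_lt_iff₀ hδ] at this
      linarith only [this]
  refine ⟨h, ?_, ?_⟩
  · simp [h, H0, S.self_eq]
  · have main : ∀ s t, s ≤ t → t - s ≤ δ → (h s)⁻¹ * h t = S.coc (c s) (c t) := by
      intro s t hst hd
      have bs := bd s
      have bt := bd t
      have hfl : ⌊s / δ⌋ ≤ ⌊t / δ⌋ := Int.floor_le_floor (by (clear * - hst hδ; gcongr))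
      have hfl2 : ⌊t / δ⌋ ≤ ⌊s / δ⌋ + 1 := by
        have : (⌊t / δ⌋ : ℝ) < ⌊s / δ⌋ + 2 := by
          by_contra hcon
          push Not at hcon
          have : ((⌊s / δ⌋ : ℝ) + 2) * δ ≤ ⌊t / δ⌋ * δ := by (clear * - hcon hδ; gcongr)
          nlinarith only [hd, bs, bt, this]
        have h2 : ⌊t / δ⌋ < ⌊s / δ⌋ + 2 := by exact_mod_cast this
        omega
      rcases hfl.eq_or_lt with heq | hlt
      · simp only [h]
        rw [← heq] at bt ⊢
        have e1 : S.coc (c (⌊s / δ⌋ * δ)) (c s) * S.coc (c s) (c t) = S.coc (c (⌊s / δ⌋ * δ)) (c t) := by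
          apply S.mul' <;> apply key <;> rw [abs_lt] <;> constructor <;> linarith only [hδ, hδr, bs, hd, hst]
        rw [← e1]; group
      · have hfe : ⌊t / δ⌋ = ⌊s / δ⌋ + 1 := by omega
        simp only [h]
        rw [hfe] at bt ⊢
        have e0 := H1 ⌊s / δ⌋
        push_cast at bt e0 ⊢
        set p : ℝ := (⌊s / δ⌋ : ℝ) * δ with hp
        have hq : ((⌊s / δ⌋ : ℝ) + 1) * δ = p + δ := by ring
        rw [hq] at bt e0 ⊢
        have e1 : S.coc (c p) (c s) * S.coc (c s) (c t) = S.coc (c p) (c t) := by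
          apply S.mul' <;> apply key <;> rw [abs_lt] <;> constructor <;> linarith only [hδ, hδr, bs, hd, bt]
        have e2 : S.coc (c p) (c (p + δ)) * S.coc (c (p + δ)) (c t) = S.coc (c p) (c t) := by
          apply S.mul' <;> apply key <;> rw [abs_lt] <;> constructor <;> linarith only [hδ, hδr, hd, bs, bt]
        have e3 : H (⌊s / δ⌋ + 1) = H ⌊s / δ⌋ * S.coc (c p) (c (p + δ)) := by
          rw [← e0]; group
        rw [e3]
        have e4 : S.coc (c s) (c t) = (S.coc (c p) (c s))⁻¹ * S.coc (c p) (c t) := by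
          rw [← e1]; group
        rw [e4, ← e2]; group
    intro s t hst
    rcases le_total s t with hle | hle
    · exact main s t hle (by rw [abs_sub_comm, abs_of_nonneg (by linarith)] at hst; exact hst)
    · have h1 := main t s hle (by rw [abs_of_nonneg (by linarith)] at hst; exact hst)
      have h2 : dist (c t) (c s) < S.r := by
        apply key; rw [abs_sub_comm]; linarith
      rw [← S.inv_eq h2, ← h1]; group

/-- Uniqueness of lifts up to a left factor. -/
lemma IsLift.unique {c : ℝ → M} {δ : ℝ} (hδ : 0 < δ) {h h' : ℝ → Γ} (H : S.IsLift c δ h)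
    (H' : S.IsLift c δ h') (t : ℝ) : h' t = h' 0 * (h 0)⁻¹ * h t := by
  have key : ∀ s t, |s - t| ≤ δ → h' s * (h s)⁻¹ = h' t * (h t)⁻¹ := by
    intro s t hst
    have := (H s t hst).trans (H' s t hst).symm
    have e : h t = h s * ((h' s)⁻¹ * h' t) := by rw [← this]; group
    rw [e]; group
  have step : ∀ (u : ℝ), |u| ≤ δ → ∀ n : ℕ, h' (n * u) * (h (n * u))⁻¹ = h' 0 * (h 0)⁻¹ := by
    intro u hu n
    induction n with
    | zero => simp
    | succ n ih =>
      rw [← ih]
      apply key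
      push_cast
      have : ((n : ℝ) + 1) * u - n * u = u := by ring
      rw [this]; exact hu
  obtain ⟨n, hn⟩ := exists_nat_gt (|t| / δ)
  have hn0 : (0 : ℝ) < n := lt_of_le_of_lt (by (clear * - hδ; positivity)) hn
  have h1 := step (t / n) (by
    rw [abs_div, abs_of_pos hn0, div_le_iff₀ hn0]
    rw [div_lt_iff₀ hδ] at hn
    linarith only [hn]) n
  have h2 : (n : ℝ) * (t / n) = t := by (clear * - hn0; field_simp)
  rw [h2] at h1
  rw [← h1]; group

lemma IsLift.shift {c : ℝ → M} {δ : ℝ} {h : ℝ → Γ} (H : S.IsLift c δ h) (b : ℝ) (g : Γ) :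
    S.IsLift (fun t => c (t + b)) δ (fun t => g * h (t + b)) := by
  intro s t hst
  have := H (s + b) (t + b) (by simpa only [add_sub_add_right_eq_sub] using hst)
  simp only
  rw [← this]; group

/-- Lift of a periodic curve: `h (t + τ) = h τ * (h 0)⁻¹ * h t`. -/
lemma IsLift.periodic {c : ℝ → M} {δ : ℝ} (hδ : 0 < δ) {h : ℝ → Γ} (H : S.IsLift c δ h)
    {τ : ℝ} (hτ : Function.Periodic c τ) (t : ℝ) : h (t + τ) = h τ * (h 0)⁻¹ * h t := by
  have H' : S.IsLift c δ (fun t => h (t + τ)) := by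
    have := H.shift S τ 1
    simp only [one_mul] at this
    have e : (fun t => c (t + τ)) = c := funext hτ
    rwa [e] at this
  simpa using H.unique S hδ H' t

/-- Lift of a periodic curve, integer multiples of the period. -/
lemma IsLift.periodic_zsmul {c : ℝ → M} {δ : ℝ} (hδ : 0 < δ) {h : ℝ → Γ} (H : S.IsLift c δ h)
    (h0 : h 0 = 1) {τ : ℝ} (hτ : Function.Periodic c τ) (k : ℤ) (t : ℝ) :
    h (t + k * τ) = (h τ) ^ k * h t := by
  have e1 : ∀ t, h (t + τ) = h τ * h t := by
    intro t; have := H.periodic S hδ hτ t; rwa [h0, inv_one, mul_one] at this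
  induction k using Int.induction_on with
  | zero => simp
  | succ k ih =>
    have : t + ((k : ℤ) + 1 : ℤ) * τ = (t + (k : ℤ) * τ) + τ := by push_cast; ring
    rw [this, e1, ih, ← mul_assoc, ← zpow_one_add, add_comm]
  | pred k ih =>
    have h2 := e1 (t + (-(k : ℤ) - 1 : ℤ) * τ)
    have : t + (-(k : ℤ) - 1 : ℤ) * τ + τ = t + (-(k : ℤ) : ℤ) * τ := by push_cast; ring
    rw [this, ih] at h2
    have h3 : h (t + (-(k : ℤ) - 1 : ℤ) * τ) = (h τ)⁻¹ * ((h τ) ^ (-(k : ℤ)) * h t) := by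
      rw [h2]; group
    rw [h3, ← mul_assoc, ← zpow_neg_one, ← zpow_add]
    congr 2
    ring

end LocalCocycle

end Vale.Agent.P216
end
end

section

section

/-!
Discrete minimisation: every nontrivial class of closed chains contains a closed geodesic.
-/

namespace Vale.Agent.P216

open Set

/-- Any two points are joined by a minimising segment. -/
def HasSegments (M : Type*) [MetricSpace M] : Prop :=
  ∀ x y : M, ∃ γ : ℝ → M, γ 0 = x ∧ γ (dist x y) = y ∧
    ∀ s ∈ Icc 0 (dist x y), ∀ t ∈ Icc 0 (dist x y), dist (γ s) (γ t) = |s - t|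

lemma HasSegments.midpoint {M : Type*} [MetricSpace M] (h : HasSegments M) (x y : M) :
    ∃ m : M, dist x m = dist x y / 2 ∧ dist m y = dist x y / 2 := by
  obtain ⟨γ, h0, h1, h2⟩ := h x y
  have hd : 0 ≤ dist x y := dist_nonneg
  refine ⟨γ (dist x y / 2), ?_, ?_⟩
  · have := h2 0 ⟨le_rfl, hd⟩ (dist x y / 2) ⟨by positivity, by linarith only [hd]⟩
    rw [h0] at this
    rw [this, zero_sub, abs_neg, abs_of_nonneg (by positivity)]
  · have := h2 (dist x y / 2) ⟨by positivity, by linarith⟩ (dist x y) ⟨hd, le_rfl⟩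
    rw [h1] at this
    rw [this, abs_sub_comm, abs_of_nonneg (by linarith only [hd])]
    ring

namespace LocalCocycle

variable {M Γ : Type*} [MetricSpace M] [Group Γ] (S : LocalCocycle M Γ)

/-- Closed chain in the class of `g` with steps smaller than `ε`. -/
def HasChain (g : Γ) (n : ℕ) (E : ℝ) : Prop :=
  ∃ x : ℕ → M, x n = x 0 ∧ (∀ i < n, dist (x i) (x (i + 1)) < S.r / 2) ∧ IsConj g (S.P x n) ∧
    ∑ i ∈ Finset.range n, dist (x i) (x (i + 1)) ^ 2 ≤ E

lemma HasChain.double (hM : HasSegments M) {g : Γ} {n : ℕ} {E : ℝ} (h : S.HasChain g n E) :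
    S.HasChain g (2 * n) (E / 2) := by
  obtain ⟨x, hx0, hx1, hx2, hx3⟩ := h
  have hr := S.r_pos
  choose m hm1 hm2 using fun i => hM.midpoint (x i) (x (i + 1))
  let y : ℕ → M := fun i => if i % 2 = 0 then x (i / 2) else m (i / 2)
  have ye : ∀ i, y (2 * i) = x i := by intro i; simp [y]
  have yo : ∀ i, y (2 * i + 1) = m i := by
    intro i
    have h1 : (2 * i + 1) % 2 ≠ 0 := by omega
    have h2 : (2 * i + 1) / 2 = i := by omega
    simp only [y, if_neg h1, h2]
  have yo' : ∀ i, y (2 * i + 1 + 1) = x (i + 1) := by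
    intro i; rw [show 2 * i + 1 + 1 = 2 * (i + 1) by ring, ye]
  refine ⟨y, ?_, ?_, ?_, ?_⟩
  · rw [ye, show (0 : ℕ) = 2 * 0 by rfl, ye, hx0]
  · intro i hi
    rcases Nat.even_or_odd' i with ⟨k, rfl | rfl⟩
    · rw [ye, yo, hm1]
      have := hx1 k (by omega)
      linarith only [hr, this]
    · rw [yo, yo', hm2]
      have := hx1 k (by omega)
      linarith only [hr, this]
  · have : ∀ k ≤ n, S.P y (2 * k) = S.P x k := by
      intro k hk
      induction k with
      | zero => rfl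
      | succ k ih =>
        have h1 := hx1 k (by omega)
        rw [show 2 * (k + 1) = 2 * k + 1 + 1 by ring, P_succ, P_succ, ih (by omega), ye, yo, yo',
          P_succ, mul_assoc]
        congr 1
        apply S.mul'
        · rw [hm1]; linarith only [hr, h1]
        · rw [hm2]; linarith only [hr, h1]
        · linarith only [hr, h1]
    rw [this n le_rfl]
    exact hx2
  · have : ∀ k, ∑ i ∈ Finset.range (2 * k), dist (y i) (y (i + 1)) ^ 2
        = (∑ i ∈ Finset.range k, dist (x i) (x (i + 1)) ^ 2) / 2 := by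
      intro k
      induction k with
      | zero => simp
      | succ k ih =>
        rw [show 2 * (k + 1) = 2 * k + 1 + 1 by ring, Finset.sum_range_succ, Finset.sum_range_succ,
          Finset.sum_range_succ, ih, ye, yo, yo', hm1, hm2]
        ring
    rw [this n]
    linarith only [hx3]

lemma HasChain.exists_small (hM : HasSegments M) {g : Γ} {n : ℕ} {E : ℝ} (hn : 0 < n)
    (h : S.HasChain g n E) {ε : ℝ} (hε : 0 < ε) : ∃ N : ℕ, 2 ≤ N ∧ S.HasChain g N ε := by
  have key : ∀ k : ℕ, S.HasChain g (2 ^ k * n) (E / 2 ^ k) := by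
    intro k
    induction k with
    | zero => simpa using h
    | succ k ih =>
      have := ih.double S hM
      rw [← mul_assoc, ← pow_succ', div_div, ← pow_succ] at this
      exact this
  obtain ⟨k, hk⟩ := exists_nat_gt (max E 0 / ε)
  have h1 := key (k + 1)
  refine ⟨2 ^ (k + 1) * n, ?_, ?_⟩
  · have : 1 ≤ 2 ^ k := Nat.one_le_two_pow
    rw [pow_succ]
    nlinarith only [hn, this]
  · obtain ⟨x, hx0, hx1, hx2, hx3⟩ := h1
    refine ⟨x, hx0, hx1, hx2, hx3.trans ?_⟩
    have h2 : (k : ℝ) < 2 ^ (k + 1) := by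
      have : k < 2 ^ (k + 1) := (Nat.lt_two_pow_self).trans (Nat.pow_lt_pow_right (by norm_num) (by omega))
      exact_mod_cast this
    rw [div_lt_iff₀ hε] at hk
    rw [div_le_iff₀ (by positivity)]
    have : E ≤ max E 0 := le_max_left _ _
    nlinarith only [hk, this, hε, h2]

end LocalCocycle

section Energy

variable {M : Type*} [MetricSpace M] {N : ℕ} [NeZero N]

/-- The discrete energy of a cyclic chain. -/
noncomputable def energy (x : ZMod N → M) : ℝ := ∑ i, dist (x i) (x (i + 1)) ^ 2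

lemma continuous_energy : Continuous (energy (M := M) (N := N)) := by
  unfold energy
  fun_prop

lemma sq_dist_le_energy (x : ZMod N → M) (i : ZMod N) : dist (x i) (x (i + 1)) ^ 2 ≤ energy x :=
  Finset.single_le_sum (f := fun i => dist (x i) (x (i + 1)) ^ 2) (fun _ _ => sq_nonneg _)
    (Finset.mem_univ i)

/-- Replacing one point of the chain changes the energy by the expected amount. -/
lemma energy_update (hN : 2 ≤ N) (x : ZMod N → M) (j : ZMod N) (m : M) :
    energy (Function.update x j m) = energy x - dist (x (j - 1)) (x j) ^ 2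
      - dist (x j) (x (j + 1)) ^ 2 + dist (x (j - 1)) m ^ 2 + dist m (x (j + 1)) ^ 2 := by
  have h01 : (1 : ZMod N) ≠ 0 := by
    have : Fact (1 < N) := ⟨by omega⟩
    exact one_ne_zero
  have hj : j - 1 ≠ j := by
    intro h
    apply h01
    have : j - 1 - j = 0 := by rw [h]; ring
    have h2 : (-1 : ZMod N) = 0 := by rw [← this]; ring
    simpa using h2
  have hj' : j + 1 ≠ j := by
    intro h
    apply h01
    have : j + 1 - j = 0 := by rw [h]; ring
    rw [← this]; ring
  set y := Function.update x j m with hy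
  have e1 : ∀ z : ZMod N → M, energy z = ∑ i ∈ (Finset.univ.erase j).erase (j - 1),
      dist (z i) (z (i + 1)) ^ 2 + dist (z (j - 1)) (z j) ^ 2 + dist (z j) (z (j + 1)) ^ 2 := by
    intro z
    unfold energy
    rw [← Finset.sum_erase_add _ _ (Finset.mem_univ j),
      ← Finset.sum_erase_add (Finset.univ.erase j) _ (a := j - 1) (by simp [hj])]
    simp
  have e2 : ∑ i ∈ (Finset.univ.erase j).erase (j - 1), dist (y i) (y (i + 1)) ^ 2
      = ∑ i ∈ (Finset.univ.erase j).erase (j - 1), dist (x i) (x (i + 1)) ^ 2 := by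
    apply Finset.sum_congr rfl
    intro i hi
    simp only [Finset.mem_erase, Finset.mem_univ, and_true] at hi
    have h1 : y i = x i := Function.update_of_ne hi.2 _ _
    have h2 : y (i + 1) = x (i + 1) := by
      apply Function.update_of_ne
      intro h
      apply hi.1
      rw [← h]; ring
    rw [h1, h2]
  rw [e1 y, e1 x, e2]
  have h1 : y (j - 1) = x (j - 1) := Function.update_of_ne hj _ _
  have h2 : y j = m := Function.update_self _ _ _
  have h3 : y (j + 1) = x (j + 1) := Function.update_of_ne hj' _ _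
  rw [h1, h2, h3]
  ring

end Energy

end Vale.Agent.P216
end
end

section

section

/-!
Compact Riemannian manifolds are geodesic spaces.
-/

namespace Vale.Agent.P216

open Set Manifold Bundle
open scoped ENNReal ContDiff Topology

section Abstract

variable {M : Type*} [MetricSpace M]

/-- From a continuous curve with an additive length function dominating the distance one gets
a Lipschitz curve. -/
lemma exists_lipschitz_curve {γ : ℝ → M} (hγ : ContinuousOn γ (Icc 0 1)) {L : ℝ → ℝ}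
    (hL0 : L 0 = 0) (hL : ∀ a b, 0 ≤ a → a ≤ b → b ≤ 1 → dist (γ a) (γ b) ≤ L b - L a) :
    ∃ f : ℝ → M, f 0 = γ 0 ∧ f 1 = γ 1 ∧
      ∀ s ∈ Icc (0 : ℝ) 1, ∀ t ∈ Icc (0 : ℝ) 1, dist (f s) (f t) ≤ L 1 * |s - t| := by
  have mono : ∀ a b, 0 ≤ a → a ≤ b → b ≤ 1 → L a ≤ L b := by
    intro a b h1 h2 h3
    linarith only [hL a b h1 h2 h3, dist_nonneg (x := γ a) (y := γ b), hL, h1, h2, h3]
  have L1 : 0 ≤ L 1 := by have := mono 0 1 le_rfl zero_le_one le_rfl; linarith only [hL0, this]
  let A : ℝ → Set ℝ := fun u => {t | t ∈ Icc (0 : ℝ) 1 ∧ L t ≤ u * L 1}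
  let T : ℝ → ℝ := fun u => sSup (A u)
  have Abdd : ∀ u, BddAbove (A u) := fun u => ⟨1, fun t ht => ht.1.2⟩
  have A0 : ∀ u, 0 ≤ u → (0 : ℝ) ∈ A u := by
    intro u hu
    refine ⟨⟨le_rfl, zero_le_one⟩, ?_⟩
    rw [hL0]; positivity
  have T0 : ∀ u, 0 ≤ u → 0 ≤ T u := fun u hu => le_csSup (Abdd u) (A0 u hu)
  have T1 : ∀ u, 0 ≤ u → T u ≤ 1 := fun u hu => csSup_le ⟨0, A0 u hu⟩ (fun t ht => ht.1.2)
  have Tmono : ∀ u v, 0 ≤ u → u ≤ v → T u ≤ T v := by
    intro u v hu huv
    apply csSup_le_csSup (Abdd v) ⟨0, A0 u hu⟩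
    rintro t ⟨h1, h2⟩
    exact ⟨h1, h2.trans (by gcongr)⟩
  have Tgt : ∀ u t, 0 ≤ u → T u < t → t ≤ 1 → u * L 1 ≤ L t := by
    intro u t hu h1 h2
    by_contra hcon
    push Not at hcon
    have : t ∈ A u := ⟨⟨(T0 u hu).trans h1.le, h2⟩, hcon.le⟩
    linarith only [le_csSup (Abdd u) this, h1, Abdd, this]
  have Tlt : ∀ u t, 0 ≤ u → 0 ≤ t → t < T u → L t ≤ u * L 1 := by
    intro u t hu h0 h1
    obtain ⟨s, hs, hts⟩ := exists_lt_of_lt_csSup ⟨0, A0 u hu⟩ h1
    exact (mono t s h0 hts.le hs.1.2).trans hs.2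
  have main : ∀ u v, 0 ≤ u → u ≤ v → dist (γ (T u)) (γ (T v)) ≤ L 1 * (v - u) := by
    intro u v hu huv
    have hv : 0 ≤ v := hu.trans huv
    rcases (Tmono u v hu huv).eq_or_lt with h | h
    · rw [h, dist_self]
      have : 0 ≤ v - u := by linarith
      positivity
    · -- approximate both ends
      set a := T u with ha
      set b := T v with hb
      have ha0 : 0 ≤ a := T0 u hu
      have hb1 : b ≤ 1 := T1 v hv
      have key : ∀ δ : ℝ, 0 < δ → δ < (b - a) / 2 →
          dist (γ (a + δ)) (γ (b - δ)) ≤ L 1 * (v - u) := by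
        intro δ h1 h2
        have e1 := Tgt u (a + δ) hu (by linarith only [h1]) (by linarith only [hb1, h1, h2])
        have e2 := Tlt v (b - δ) hv (by linarith only [ha0, h1, h2]) (by linarith only [h1])
        have e3 := hL (a + δ) (b - δ) (by linarith only [ha0, h1]) (by linarith only [h2]) (by linarith only [hb1, h1])
        linarith only [e1, e2, e3]
      have c1 : Filter.Tendsto (fun δ : ℝ => dist (γ (a + δ)) (γ (b - δ))) (𝓝[>] 0)
          (𝓝 (dist (γ a) (γ b))) := by
        have ev : ∀ᶠ δ : ℝ in 𝓝[>] 0, δ < (b - a) / 2 ∧ 0 < δ := by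
          have : Ioo (0 : ℝ) ((b - a) / 2) ∈ 𝓝[>] (0 : ℝ) := Ioo_mem_nhdsGT (by linarith only [h])
          filter_upwards [this] with δ hδ using ⟨hδ.2, hδ.1⟩
        apply Filter.Tendsto.dist
        · have h3 : ContinuousWithinAt γ (Icc 0 1) a := hγ a ⟨ha0, by linarith only [h, hb1]⟩
          apply h3.tendsto.comp
          apply tendsto_nhdsWithin_iff.2
          constructor
          · have : Continuous (fun δ : ℝ => a + δ) := by fun_prop
            have h4 := (this.tendsto 0).mono_left (nhdsWithin_le_nhds (s := Ioi 0))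
            simpa using h4
          · filter_upwards [ev] with δ hδ
            exact ⟨by linarith only [hδ.2, ha0, hδ], by linarith only [hδ.1, hb1, hδ]⟩
        · have h3 : ContinuousWithinAt γ (Icc 0 1) b := hγ b ⟨by linarith, hb1⟩
          apply h3.tendsto.comp
          apply tendsto_nhdsWithin_iff.2
          constructor
          · have : Continuous (fun δ : ℝ => b - δ) := by fun_prop
            have h4 := (this.tendsto 0).mono_left (nhdsWithin_le_nhds (s := Ioi 0))
            simpa using h4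
          · filter_upwards [ev] with δ hδ
            exact ⟨by linarith only [hδ.1, ha0, hδ], by linarith only [hδ.2, hb1, hδ]⟩
      apply le_of_tendsto c1
      have : Ioo (0 : ℝ) ((b - a) / 2) ∈ 𝓝[>] (0 : ℝ) := Ioo_mem_nhdsGT (by linarith only [h])
      filter_upwards [this] with δ hδ using key δ hδ.1 hδ.2
  have hT1 : T 1 = 1 := by
    apply le_antisymm (T1 1 zero_le_one)
    exact le_csSup (Abdd 1) ⟨⟨zero_le_one, le_rfl⟩, by rw [one_mul]⟩
  have hT0 : γ (T 0) = γ 0 := by
    have ht0 := T0 0 le_rfl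
    rcases ht0.eq_or_lt with h | h
    · rw [← h]
    · have key : ∀ t ∈ Ico 0 (T 0), dist (γ 0) (γ t) ≤ 0 := by
        intro t ht
        have e1 := Tlt 0 t le_rfl ht.1 ht.2
        have e2 := hL 0 t le_rfl ht.1 (ht.2.le.trans (T1 0 le_rfl))
        linarith only [hL0, e1, e2]
      have c1 : Filter.Tendsto (fun t => dist (γ 0) (γ t)) (𝓝[<] (T 0))
          (𝓝 (dist (γ 0) (γ (T 0)))) := by
        apply Filter.Tendsto.dist tendsto_const_nhds
        have h3 : ContinuousWithinAt γ (Icc 0 1) (T 0) := hγ _ ⟨ht0, T1 0 le_rfl⟩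
        apply h3.tendsto.mono_left
        have : 𝓝[<] (T 0) = 𝓝[Ico 0 (T 0)] (T 0) := (nhdsWithin_Ico_eq_nhdsLT h).symm
        rw [this]
        apply nhdsWithin_mono
        intro t ht
        exact ⟨ht.1, ht.2.le.trans (T1 0 le_rfl)⟩
      have h5 : dist (γ 0) (γ (T 0)) ≤ 0 := by
        apply le_of_tendsto c1
        have : Ico 0 (T 0) ∈ 𝓝[<] (T 0) := Ico_mem_nhdsLT h
        filter_upwards [this] with t ht using key t ht
      exact (dist_le_zero.1 h5).symm
  refine ⟨fun u => γ (T u), hT0, by simp only [hT1], fun s hs t ht => ?_⟩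
  rcases le_total s t with h | h
  · rw [abs_sub_comm, abs_of_nonneg (by linarith only [h])]
    exact main s t hs.1 h
  · rw [abs_of_nonneg (by linarith), dist_comm]
    exact main t s ht.1 h

/-- In a compact space, almost minimising Lipschitz curves give minimising segments. -/
theorem hasSegments_of_approx [CompactSpace M]
    (h : ∀ x y : M, ∀ ε > 0, ∃ f : ℝ → M, f 0 = x ∧ f 1 = y ∧
      ∀ s ∈ Icc (0 : ℝ) 1, ∀ t ∈ Icc (0 : ℝ) 1, dist (f s) (f t) ≤ (dist x y + ε) * |s - t|) :
    HasSegments M := by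
  intro x y
  set d := dist x y with hd
  have hd0 : 0 ≤ d := dist_nonneg
  let K : ℕ → Set (Icc (0 : ℝ) 1 → M) := fun n =>
    {f | f ⟨0, by simp⟩ = x ∧ f ⟨1, by simp⟩ = y ∧
      ∀ s t, dist (f s) (f t) ≤ (d + 1 / (n + 1)) * |(s : ℝ) - t|}
  have Kcl : ∀ n, IsClosed (K n) := by
    intro n
    have : K n = {f | f ⟨0, by simp⟩ = x} ∩ ({f | f ⟨1, by simp⟩ = y} ∩
        ⋂ s : Icc (0 : ℝ) 1, ⋂ t : Icc (0 : ℝ) 1,
          {f | dist (f s) (f t) ≤ (d + 1 / (n + 1)) * |(s : ℝ) - t|}) := by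
      ext f; simp only [K, mem_inter_iff, mem_iInter, mem_ofPred_eq]
    rw [this]
    apply IsClosed.inter (isClosed_eq (continuous_apply _) continuous_const)
    apply IsClosed.inter (isClosed_eq (continuous_apply _) continuous_const)
    apply isClosed_iInter; intro s
    apply isClosed_iInter; intro t
    exact isClosed_le ((continuous_apply s).dist (continuous_apply t)) continuous_const
  have Kne : ∀ n, (K n).Nonempty := by
    intro n
    obtain ⟨f, h0, h1, h2⟩ := h x y (1 / (n + 1)) (by positivity)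
    exact ⟨fun s => f s, h0, h1, fun s t => h2 s s.2 t t.2⟩
  have Kanti : ∀ n, K (n + 1) ⊆ K n := by
    rintro n f ⟨h0, h1, h2⟩
    refine ⟨h0, h1, fun s t => (h2 s t).trans ?_⟩
    gcongr
    linarith only []
  obtain ⟨f, hf⟩ := IsCompact.nonempty_iInter_of_sequence_nonempty_isCompact_isClosed K Kanti Kne
    (Kcl 0).isCompact Kcl
  rw [mem_iInter] at hf
  have f0 := (hf 0).1
  have f1 := (hf 0).2.1
  have fl : ∀ s t, dist (f s) (f t) ≤ d * |(s : ℝ) - t| := by
    intro s t
    apply le_of_forall_pos_le_add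
    intro ε hε
    have hst : |(s : ℝ) - t| ≤ 1 := by
      rw [abs_le]
      constructor <;> linarith only [s.2.1, s.2.2, t.2.1, t.2.2]
    obtain ⟨n, hn⟩ := exists_nat_one_div_lt hε
    have h3 := (hf n).2.2 s t
    have h4 : 0 ≤ |(s : ℝ) - t| := abs_nonneg _
    have h5 : (0 : ℝ) < 1 / (n + 1) := by positivity
    nlinarith only [hn, h3, hst, h5]
  have feq : ∀ s t : Icc (0 : ℝ) 1, (s : ℝ) ≤ t → dist (f s) (f t) = d * (t - s) := by
    intro s t hst
    apply le_antisymm
    · have := fl s t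
      rwa [abs_sub_comm, abs_of_nonneg (by linarith)] at this
    · have e1 := fl ⟨0, by simp⟩ s
      have e2 := fl t ⟨1, by simp⟩
      rw [f0] at e1
      rw [f1] at e2
      simp only at e1 e2
      rw [zero_sub, abs_neg, abs_of_nonneg s.2.1] at e1
      rw [abs_sub_comm, abs_of_nonneg (by linarith only [t.2.2])] at e2
      have e3 := dist_triangle x (f s) y
      have e4 := dist_triangle (f s) (f t) y
      rw [← hd] at e3
      linarith only [e1, e2, e3, e4]
  rcases hd0.eq_or_lt with hz | hpos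
  · have hxy : x = y := by rw [← dist_eq_zero, ← hd, ← hz]
    refine ⟨fun _ => x, rfl, hxy, ?_⟩
    intro s hs t ht
    rw [← hz] at hs ht
    have h1 : s = 0 := le_antisymm hs.2 hs.1
    have h2 : t = 0 := le_antisymm ht.2 ht.1
    simp [h1, h2]
  · refine ⟨fun u => f (projIcc 0 1 zero_le_one (u / d)), ?_, ?_, ?_⟩
    · simp only [zero_div]
      rw [projIcc_of_mem zero_le_one (x := (0 : ℝ)) ⟨le_rfl, zero_le_one⟩]
      exact f0
    · simp only [div_self hpos.ne']
      rw [projIcc_of_mem zero_le_one (x := (1 : ℝ)) ⟨zero_le_one, le_rfl⟩]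
      exact f1
    · have main : ∀ s ∈ Icc 0 d, ∀ t ∈ Icc 0 d, s ≤ t →
          dist (f (projIcc 0 1 zero_le_one (s / d))) (f (projIcc 0 1 zero_le_one (t / d)))
            = |s - t| := by
        intro s hs t ht hst
        have ms : s / d ∈ Icc (0 : ℝ) 1 := ⟨div_nonneg hs.1 hd0, (div_le_one hpos).2 hs.2⟩
        have mt : t / d ∈ Icc (0 : ℝ) 1 := ⟨div_nonneg ht.1 hd0, (div_le_one hpos).2 ht.2⟩
        rw [projIcc_of_mem zero_le_one ms, projIcc_of_mem zero_le_one mt,
          feq _ _ (by simp only; gcongr)]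
        simp only
        rw [abs_sub_comm, abs_of_nonneg (by linarith only [hst])]
        field_simp
      intro s hs t ht
      rcases le_total s t with hst | hst
      · exact main s hs t ht hst
      · have := main t ht s hs hst
        rw [dist_comm, this, abs_sub_comm]

end Abstract

section Riemannian

variable {E : Type*} [NormedAddCommGroup E] [NormedSpace ℝ E]
  {H : Type*} [TopologicalSpace H] {I : ModelWithCorners ℝ E H}
  {M : Type*} [MetricSpace M] [ChartedSpace H M]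
  [RiemannianBundle (fun (x : M) ↦ TangentSpace I x)]

variable (I M) in
theorem hasSegments_of_riemannian [CompactSpace M] [IsRiemannianManifold I M] :
    HasSegments M := by
  apply hasSegments_of_approx
  intro x y ε hε
  have h1 : riemannianEDist I x y < ENNReal.ofReal (dist x y + ε) := by
    rw [← IsRiemannianManifold.out (I := I) x y, edist_dist]
    rw [ENNReal.ofReal_lt_ofReal_iff_of_nonneg dist_nonneg]
    linarith
  obtain ⟨γ, h0, h1', hγ, hlen⟩ := exists_lt_of_riemannianEDist_lt h1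
  have hfin : ∀ a b, 0 ≤ a → b ≤ 1 → pathELength I γ a b ≠ ⊤ := by
    intro a b ha hb
    apply ne_top_of_le_ne_top hlen.ne_top
    exact pathELength_mono ha hb
  let L : ℝ → ℝ := fun t => (pathELength I γ 0 t).toReal
  have hL0 : L 0 = 0 := by simp [L]
  have hL : ∀ a b, 0 ≤ a → a ≤ b → b ≤ 1 → dist (γ a) (γ b) ≤ L b - L a := by
    intro a b ha hab hb
    have e1 : pathELength I γ 0 a + pathELength I γ a b = pathELength I γ 0 b :=
      pathELength_add ha hab
    have e2 : L a + (pathELength I γ a b).toReal = L b := by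
      simp only [L]
      rw [← ENNReal.toReal_add (hfin _ _ le_rfl (hab.trans hb)) (hfin _ _ ha hb), e1]
    have e3 : edist (γ a) (γ b) ≤ pathELength I γ a b := by
      rw [IsRiemannianManifold.out (I := I) (γ a) (γ b)]
      exact riemannianEDist_le_pathELength (hγ.mono (Icc_subset_Icc ha hb)) rfl rfl hab
    rw [← e2, add_sub_cancel_left, dist_edist]
    exact ENNReal.toReal_mono (hfin _ _ ha hb) e3
  obtain ⟨f, f0, f1, hf⟩ := exists_lipschitz_curve hγ.continuousOn hL0 hL
  refine ⟨f, by rw [f0, h0], by rw [f1, h1'], fun s hs t ht => (hf s hs t ht).trans ?_⟩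
  gcongr
  have := ENNReal.toReal_mono ENNReal.ofReal_ne_top hlen.le
  rwa [ENNReal.toReal_ofReal (by positivity)] at this

end Riemannian

end Vale.Agent.P216
end
end

section

section

/-!
The fundamental group of a compact manifold as a local cocycle.
-/

namespace Vale.Agent.P216

open Set unitInterval

/-- Paths with the same endpoints inside a ball of radius `r₀` are homotopic. -/
def SmallPathsHomotopic (M : Type*) [MetricSpace M] (r₀ : ℝ) : Prop :=
  ∀ p x y : M, ∀ γ γ' : Path x y, (∀ t, dist (γ t) p < r₀) → (∀ t, dist (γ' t) p < r₀) →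
    γ.Homotopic γ'

section Chart

variable {E : Type*} [NormedAddCommGroup E] [NormedSpace ℝ E]

/-- Straight line homotopy in a chart. -/
lemma homotopic_in_chart {M : Type*} [TopologicalSpace M] (e : OpenPartialHomeomorph M E)
    {B : Set E} (hB : Convex ℝ B) (hBt : B ⊆ e.target) {x y : M} (γ γ' : Path x y)
    (h : ∀ t, γ t ∈ e.source ∧ e (γ t) ∈ B) (h' : ∀ t, γ' t ∈ e.source ∧ e (γ' t) ∈ B) :
    γ.Homotopic γ' := by
  have c1 : Continuous (fun t => e (γ t)) :=
    e.continuousOn.comp_continuous γ.continuous (fun t => (h t).1)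
  have c2 : Continuous (fun t => e (γ' t)) :=
    e.continuousOn.comp_continuous γ'.continuous (fun t => (h' t).1)
  let L : I × I → E := fun z => (1 - (z.1 : ℝ)) • e (γ z.2) + (z.1 : ℝ) • e (γ' z.2)
  have cL : Continuous L := by
    have c1' : Continuous (fun z : I × I => e (γ z.2)) := c1.comp continuous_snd
    have c2' : Continuous (fun z : I × I => e (γ' z.2)) := c2.comp continuous_snd
    have c3 : Continuous (fun z : I × I => (z.1 : ℝ)) := continuous_subtype_val.comp continuous_fst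
    exact ((continuous_const.sub c3).smul c1').add (c3.smul c2')
  have hL : ∀ z, L z ∈ B := by
    intro z
    apply hB (h z.2).2 (h' z.2).2
    · have := z.1.2.2; linarith only [this]
    · exact z.1.2.1
    · ring
  have cF : Continuous (fun z => e.symm (L z)) :=
    e.continuousOn_symm.comp_continuous cL (fun z => hBt (hL z))
  refine ⟨{ toFun := fun z => e.symm (L z)
            continuous_toFun := cF
            map_zero_left := fun t => ?_
            map_one_left := fun t => ?_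
            prop' := fun s t ht => ?_ }⟩
  · simp only [L]
    simp [e.left_inv (h t).1]
  · simp only [L]
    simp [e.left_inv (h' t).1]
  · have hx : e.symm (e x) = x := by
      have := (h 0).1
      rw [γ.source] at this
      exact e.left_inv this
    have hy : e.symm (e y) = y := by
      have := (h 1).1
      rw [γ.target] at this
      exact e.left_inv this
    rcases ht with rfl | rfl
    · simp [L, ← add_smul, hx]
    · simp [L, ← add_smul, hy]

variable (E) in
theorem exists_smallPathsHomotopic (M : Type*) [MetricSpace M] [CompactSpace M]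
    [ChartedSpace E M] : ∃ r₀ > 0, SmallPathsHomotopic M r₀ := by
  have h1 : ∀ x : M, ∃ ρ > 0, Metric.ball (chartAt E x x) ρ ⊆ (chartAt E x).target := fun x =>
    Metric.isOpen_iff.1 (chartAt E x).open_target _ (mem_chart_target E x)
  choose ρ hρ hρt using h1
  let U : M → Set M := fun x => (chartAt E x).source ∩
    (chartAt E x) ⁻¹' Metric.ball (chartAt E x x) (ρ x)
  have hUo : ∀ x, IsOpen (U x) := fun x =>
    (chartAt E x).isOpen_inter_preimage Metric.isOpen_ball
  have hUc : (univ : Set M) ⊆ ⋃ x, U x := fun x _ => mem_iUnion.2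
    ⟨x, mem_chart_source E x, Metric.mem_ball_self (hρ x)⟩
  obtain ⟨r₀, hr₀, H⟩ := lebesgue_number_lemma_of_metric isCompact_univ hUo hUc
  refine ⟨r₀, hr₀, fun p x y γ γ' h h' => ?_⟩
  obtain ⟨i, hi⟩ := H p (mem_univ p)
  exact homotopic_in_chart (chartAt E i) (convex_ball _ _) (hρt i) γ γ' (fun t => hi (h t))
    (fun t => hi (h' t))

end Chart

section Cocycle

variable {M : Type*} [MetricSpace M]

lemma HasSegments.exists_path (hM : HasSegments M) (x y : M) :
    ∃ γ : Path x y, ∀ t, dist (γ t) x ≤ dist x y := by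
  obtain ⟨γ, h0, h1, h2⟩ := hM x y
  have hd : 0 ≤ dist x y := dist_nonneg
  have hmem : ∀ t : I, (t : ℝ) * dist x y ∈ Icc 0 (dist x y) := fun t =>
    ⟨mul_nonneg t.2.1 hd, by have := t.2.2; nlinarith only [hd, this]⟩
  have hc : Continuous (fun t : I => γ ((t : ℝ) * dist x y)) := by
    rw [continuous_iff_continuousAt]
    intro t
    rw [ContinuousAt, tendsto_iff_dist_tendsto_zero]
    have : Continuous (fun s : I => |(s : ℝ) * dist x y - (t : ℝ) * dist x y|) := by fun_prop
    have h3 := this.tendsto t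
    rw [sub_self, abs_zero] at h3
    apply h3.congr
    intro s
    exact (h2 _ (hmem s) _ (hmem t)).symm
  refine ⟨⟨⟨fun t => γ ((t : ℝ) * dist x y), hc⟩, by simp [h0], by simp [h1]⟩, fun t => ?_⟩
  have := h2 _ (hmem t) 0 ⟨le_rfl, hd⟩
  rw [h0, sub_zero, abs_of_nonneg (hmem t).1] at this
  exact this.le.trans (hmem t).2

open Path.Homotopic.Quotient in
lemma isConj_aux {x₀ a b : M} (κ : ∀ y, Path x₀ y) (ha : a = x₀) (hb : b = x₀)
    (p : Path x₀ x₀) (q : Path a b) (hq : q = p.cast ha hb) :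
    IsConj (FundamentalGroup.fromPath (mk p) : FundamentalGroup M x₀) (FundamentalGroup.fromPath
      (((mk (κ a)).trans (mk q)).trans (symm (mk (κ b))))) := by
  subst ha
  subst hb
  rw [isConj_iff]
  refine ⟨FundamentalGroup.fromPath (symm (mk (κ b))), ?_⟩
  rw [FundamentalGroup.mul_def, FundamentalGroup.mul_def, FundamentalGroup.inv_def, hq]
  simp only [FundamentalGroup.fromPath, FundamentalGroup.fromArrow, Path.cast_rfl_rfl,
    trans_assoc]
  congr 1
  simp only [← mk_symm, Path.symm_symm]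

open Path.Homotopic.Quotient in
/-- The local cocycle with values in the fundamental group. -/
theorem exists_cocycle (hM : HasSegments M) {r₀ : ℝ} (hr₀ : 0 < r₀)
    (hS : SmallPathsHomotopic M r₀) (x₀ : M) :
    ∃ S : LocalCocycle M (FundamentalGroup M x₀), ∀ g : FundamentalGroup M x₀,
      ∃ (n : ℕ) (E : ℝ), 0 < n ∧ S.HasChain g n E := by
  choose s hs using fun x y => hM.exists_path x y
  let κ : ∀ y, Path x₀ y := fun y => s x₀ y
  let sg : ∀ x y : M, Path.Homotopic.Quotient x y := fun x y => mk (s x y)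
  have tri : ∀ x y z, dist x y < r₀ / 3 → dist y z < r₀ / 3 → dist x z < r₀ / 3 →
      (sg x y).trans (sg y z) = sg x z := by
    intro x y z h1 h2 h3
    simp only [sg, ← mk_trans]
    rw [Path.Homotopic.Quotient.eq]
    apply hS x x z
    · intro t
      have : ((s x y).trans (s y z)) t ∈ range ((s x y).trans (s y z)) := mem_range_self t
      rw [Path.trans_range] at this
      rcases this with ⟨u, hu⟩ | ⟨u, hu⟩
      · rw [← hu]; linarith only [hs x y u, hr₀, h1, hs]
      · rw [← hu]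
        have e1 := hs y z u
        have e2 := dist_triangle (s y z u) y x
        rw [dist_comm y x] at e2
        linarith only [hr₀, h1, h2, e1, e2]
    · intro t; linarith only [hs x z t, hr₀, h3, hs]
  let S : LocalCocycle M (FundamentalGroup M x₀) :=
    { r := r₀ / 3
      r_pos := by positivity
      coc := fun x y => FundamentalGroup.fromPath
        (((mk (κ y)).trans (sg y x)).trans (symm (mk (κ x))))
      mul' := by
        intro x y z h1 h2 h3
        have e1 := tri z y x (by rwa [dist_comm]) (by rwa [dist_comm]) (by rwa [dist_comm])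
        rw [FundamentalGroup.mul_def]
        simp only [FundamentalGroup.fromPath, FundamentalGroup.fromArrow]
        rw [← e1]
        simp only [trans_assoc]
        congr 2
        rw [← trans_assoc (symm (mk (κ y))), symm_trans, refl_trans] }
  refine ⟨S, fun g => ?_⟩
  obtain ⟨p, hp⟩ := Path.Homotopic.Quotient.mk_surjective g
  -- uniform continuity
  have huc : UniformContinuous p := CompactSpace.uniformContinuous_of_continuous p.continuous
  obtain ⟨η, hη, hp2⟩ := Metric.uniformContinuous_iff.1 huc (r₀ / 6) (by positivity)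
  obtain ⟨n, hn⟩ := exists_nat_gt (1 / η)
  have hn0 : (0 : ℝ) < n := lt_trans (by positivity) hn
  have hn1 : 0 < n := by exact_mod_cast hn0
  -- the subdivision, run backwards
  let u : ℕ → I := fun i => Set.projIcc 0 1 zero_le_one (1 - (i : ℝ) / n)
  have hu : ∀ i, i ≤ n → (u i : ℝ) = 1 - i / n := by
    intro i hi
    have h1 : (i : ℝ) / n ≤ 1 := by
      rw [div_le_one hn0]; exact_mod_cast hi
    have h2 : 0 ≤ (i : ℝ) / n := by positivity
    simp only [u]
    rw [Set.projIcc_of_mem zero_le_one (x := 1 - (i : ℝ) / n) ⟨by linarith only [h1], by linarith only [h2]⟩]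
  have hu0 : u 0 = 1 := by
    ext; rw [hu 0 (by omega)]; simp
  have hun : u n = 0 := by
    ext; rw [hu n le_rfl, div_self hn0.ne']; simp
  have hstep : ∀ i < n, ∀ a b : I, (u (i + 1) : ℝ) ≤ a → (a : ℝ) ≤ u i → (u (i + 1) : ℝ) ≤ b →
      (b : ℝ) ≤ u i → dist (p a) (p b) < r₀ / 6 := by
    intro i hi a b h1 h2 h3 h4
    apply hp2
    rw [Subtype.dist_eq, Real.dist_eq, abs_lt]
    rw [hu i (by omega)] at h2 h4
    rw [hu (i + 1) (by omega)] at h1 h3
    have h5 : (1 : ℝ) / n < η := by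
      rw [div_lt_iff₀ hn0]
      rw [div_lt_iff₀ hη] at hn
      linarith only [hn]
    push_cast at h1 h3
    have h6 : ((i : ℝ) + 1) / n = i / n + 1 / n := by ring
    rw [h6] at h1 h3
    constructor <;> linarith only [h4, h5, h1, h2, h3]
  let x : ℕ → M := fun i => p (u i)
  have hmono : ∀ i < n, (u (i + 1) : ℝ) ≤ u i := by
    intro i hi
    rw [hu i (by omega), hu (i + 1) (by omega)]
    push_cast
    have : (i : ℝ) / n ≤ ((i : ℝ) + 1) / n := by gcongr; linarith only []
    linarith only [this]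
  have hx : ∀ i < n, dist (x i) (x (i + 1)) < r₀ / 6 := fun i hi =>
    hstep i hi _ _ (hmono i hi) le_rfl le_rfl (hmono i hi)
  have hx0 : x 0 = x₀ := by simp only [x, hu0, p.target]
  have hxn : x n = x₀ := by simp only [x, hun, p.source]
  -- small subpaths are homotopic to segments
  have hseg : ∀ i < n, mk (p.subpath (u (i + 1)) (u i)) = sg (x (i + 1)) (x i) := by
    intro i hi
    rw [Path.Homotopic.Quotient.eq]
    apply hS (x (i + 1))
    · intro t
      have hr : (p.subpath (u (i + 1)) (u i)) t ∈ range (p.subpath (u (i + 1)) (u i)) :=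
        mem_range_self t
      rw [Path.range_subpath_of_le _ _ _ (hmono i hi)] at hr
      obtain ⟨a, ha, hat⟩ := hr
      rw [← hat]
      have := hstep i hi a (u (i + 1)) ha.1 ha.2 le_rfl (hmono i hi)
      simp only [x]
      linarith only [hr₀, this]
    · intro t
      have h1 := hs (x (i + 1)) (x i) t
      have h2 := hx i hi
      rw [dist_comm] at h2
      linarith only [hr₀, h1, h2]
  have key : ∀ k ≤ n, S.P x k = FundamentalGroup.fromPath
      (((mk (κ (x k))).trans (mk (p.subpath (u k) (u 0)))).trans (symm (mk (κ (x 0))))) := by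
    intro k hk
    induction k with
    | zero =>
      rw [S.P_zero, Path.subpath_self, mk_refl, FundamentalGroup.one_def]
      simp only [FundamentalGroup.fromPath, FundamentalGroup.fromArrow]
      rw [trans_refl, trans_symm]
    | succ k ih =>
      rw [S.P_succ, ih (by omega)]
      have e1 : mk (p.subpath (u (k + 1)) (u 0)) =
          (sg (x (k + 1)) (x k)).trans (mk (p.subpath (u k) (u 0))) := by
        rw [← hseg k (by omega), ← mk_trans, Path.Homotopic.Quotient.eq]
        exact ⟨(Path.Homotopy.subpathTransSubpath p _ _ _).symm⟩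
      rw [FundamentalGroup.mul_def, e1]
      simp only [FundamentalGroup.fromPath, FundamentalGroup.fromArrow, S]
      simp only [trans_assoc]
      congr 2
      rw [← trans_assoc (symm (mk (κ (x k)))), symm_trans, refl_trans]
  refine ⟨n, ∑ i ∈ Finset.range n, dist (x i) (x (i + 1)) ^ 2, hn1, x, by rw [hx0, hxn], ?_, ?_,
    le_rfl⟩
  · intro i hi
    have := hx i hi
    have hr : S.r = r₀ / 3 := rfl
    rw [hr]; linarith only [this]
  · rw [key n le_rfl, ← hp]
    apply isConj_aux κ hxn hx0 p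
    ext t
    rw [Path.cast_coe]
    change p (Set.Icc.convexComb (u n) (u 0) t) = p t
    rw [hun, hu0]
    congr 1
    ext
    simp

end Cocycle

end Vale.Agent.P216
end
end

section

section

/-!
Existence of a closed geodesic in every nontrivial class of closed chains.
-/

namespace Vale.Agent.P216

open Set

section Lip

variable {M : Type*} [MetricSpace M]

lemma IsGeodesicWithSpeed.continuous {c : ℝ → M} {v : ℝ} (h : IsGeodesicWithSpeed c v) :
    Continuous c := by
  rw [continuous_iff_continuousAt]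
  intro t
  rw [ContinuousAt, tendsto_iff_dist_tendsto_zero]
  obtain ⟨ε, hε, H⟩ := h t
  have h1 : Filter.Tendsto (fun s => v * |s - t|) (nhds t) (nhds 0) := by
    have : Continuous (fun s => v * |s - t|) := by fun_prop
    have h2 := this.tendsto t
    simpa using h2
  apply h1.congr'
  have : Metric.ball t ε ∈ nhds t := Metric.ball_mem_nhds t hε
  filter_upwards [this] with s hs
  rw [Metric.mem_ball, Real.dist_eq] at hs
  exact (H s t hs (by simpa using hε)).symm

lemma IsGeodesicWithSpeed.dist_le {c : ℝ → M} {v : ℝ} (h : IsGeodesicWithSpeed c v) (s t : ℝ) :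
    dist (c s) (c t) ≤ v * |s - t| := by
  have key : ∀ a b : ℝ, a ≤ b → dist (c a) (c b) ≤ v * (b - a) := by
    intro a b hab
    have hcl : IsClosed ({t | dist (c a) (c t) ≤ v * (t - a)} ∩ Icc a b) := by
      apply IsClosed.inter _ isClosed_Icc
      exact isClosed_le (continuous_const.dist h.continuous) (by fun_prop)
    have := IsClosed.Icc_subset_of_forall_mem_nhdsWithin hcl (by simp) (by
      intro x hx
      obtain ⟨ε, hε, H⟩ := h x
      have h2 : Ioo x (x + ε) ∈ nhdsWithin x (Ioi x) := Ioo_mem_nhdsGT (by linarith)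
      filter_upwards [h2] with y hy
      have h3 := H x y (by simpa using hε) (by
        rw [abs_of_pos (by linarith [hy.1])]; linarith [hy.2])
      have h4 := hx.1
      simp only [mem_ofPred_eq] at h4 ⊢
      have h5 := dist_triangle (c a) (c x) (c y)
      rw [abs_sub_comm, abs_of_pos (by linarith [hy.1])] at h3
      rw [h3] at h5
      nlinarith only [h4, h5])
    exact this (right_mem_Icc.2 hab)
  rcases le_total s t with hst | hst
  · rw [abs_sub_comm, abs_of_nonneg (by linarith)]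
    exact key s t hst
  · rw [abs_of_nonneg (by linarith), dist_comm]
    exact key t s hst

end Lip

section Discrete

variable {M Γ : Type*} [MetricSpace M] [Group Γ] (S : LocalCocycle M Γ)

lemma sum_zmod_eq_sum_range {N : ℕ} [NeZero N] (f : ZMod N → ℝ) :
    ∑ i, f i = ∑ k ∈ Finset.range N, f (k : ZMod N) := by
  symm
  apply Finset.sum_nbij' (fun k : ℕ => (k : ZMod N)) (fun i : ZMod N => i.val)
  · intro k _; simp
  · intro i _; simpa using i.val_lt
  · intro k hk; rw [ZMod.val_natCast_of_lt (by simpa using hk)]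
  · intro i _; simp
  · intro k _; rfl

/-- In a compact geodesic space, a nontrivial class contains a cyclic chain all of whose steps have
the same length `a > 0` and all of whose corners are straight. -/
lemma exists_straight_chain [CompactSpace M] (hM : HasSegments M) {g : Γ} (hg : g ≠ 1) {n : ℕ}
    {E : ℝ} (hn : 0 < n) (h : S.HasChain g n E) {ρ : ℝ} (hρ : 0 < ρ) (hρr : 16 * ρ ≤ S.r) :
    ∃ (N : ℕ) (_ : NeZero N) (x : ZMod N → M) (a : ℝ), 0 < a ∧ a ≤ ρ ∧
      (∀ i, dist (x i) (x (i + 1)) = a) ∧ (∀ i, dist (x (i - 1)) (x (i + 1)) = 2 * a) ∧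
      IsConj g (S.P (fun i : ℕ => x i) N) := by
  obtain ⟨N, hN, hch⟩ := h.exists_small S hM hn (ε := ρ ^ 2) (by positivity)
  have hr := S.r_pos
  have : NeZero N := ⟨by omega⟩
  let A : Set (ZMod N → M) := {x | energy x ≤ ρ ^ 2 ∧ IsConj g (S.P (fun i : ℕ => x i) N)}
  have step : ∀ x : ZMod N → M, energy x ≤ ρ ^ 2 → ∀ i, dist (x i) (x (i + 1)) ≤ ρ := by
    intro x hx i
    have := (sq_dist_le_energy x i).trans hx
    exact abs_le_of_sq_le_sq' this hρ.le |>.2
  have stepN : ∀ x : ZMod N → M, energy x ≤ ρ ^ 2 →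
      ∀ i < N, dist (x (i : ℕ)) (x ((i + 1 : ℕ) : ZMod N)) < S.r / 2 := by
    intro x hx i _
    have := step x hx i
    push_cast
    linarith only [hρ, hρr, this]
  have hconj : ∀ x y : ZMod N → M, energy x ≤ ρ ^ 2 → energy y ≤ ρ ^ 2 →
      (∀ i, dist (x i) (y i) < S.r / 2) →
      IsConj (S.P (fun i : ℕ => x i) N) (S.P (fun i : ℕ => y i) N) := by
    intro x y hx hy hxy
    apply S.P_isConj (stepN x hx) (stepN y hy) (fun i _ => hxy _) <;> simp
  have Acl : IsClosed A := by
    rw [← closure_subset_iff_isClosed]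
    intro x hx
    have h1 : energy x ≤ ρ ^ 2 := by
      have : closure A ⊆ {x | energy x ≤ ρ ^ 2} :=
        closure_minimal (fun y hy => hy.1) (isClosed_le continuous_energy continuous_const)
      exact this hx
    refine ⟨h1, ?_⟩
    obtain ⟨y, hyA, hy⟩ := Metric.mem_closure_iff.1 hx ρ hρ
    refine hyA.2.trans (hconj y x hyA.1 h1 fun i => ?_)
    have := dist_le_pi_dist x y i
    rw [dist_comm]
    linarith only [hρ, hρr, hy, this]
  have Ane : A.Nonempty := by
    obtain ⟨y, hy0, hy1, hy2, hy3⟩ := hch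
    let x : ZMod N → M := fun i => y i.val
    have hx : ∀ i : ℕ, i ≤ N → x (i : ZMod N) = y i := by
      intro i hi
      rcases hi.eq_or_lt with rfl | hlt
      · simp [x, hy0]
      · simp only [x, ZMod.val_natCast_of_lt hlt]
    refine ⟨x, ?_, ?_⟩
    · rw [energy, sum_zmod_eq_sum_range]
      refine le_trans (le_of_eq ?_) hy3
      apply Finset.sum_congr rfl
      intro i hi
      rw [Finset.mem_range] at hi
      have h1 := hx i (by omega)
      have h2 := hx (i + 1) (by omega)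
      push_cast at h2
      rw [h1, h2]
    · rwa [S.P_congr (y := y) (fun i hi => hx i hi)]
  obtain ⟨x, hxA, hmin⟩ := Acl.isCompact.exists_isMinOn Ane continuous_energy.continuousOn
  have hst := step x hxA.1
  -- the variation at a corner
  have corner : ∀ j, dist (x (j - 1)) (x j) = dist (x j) (x (j + 1)) ∧
      dist (x (j - 1)) (x (j + 1)) = dist (x (j - 1)) (x j) + dist (x j) (x (j + 1)) := by
    intro j
    obtain ⟨m, hm1, hm2⟩ := hM.midpoint (x (j - 1)) (x (j + 1))
    set y := Function.update x j m with hy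
    have hE := energy_update (by omega) x j m
    rw [hm1, hm2, ← hy] at hE
    set d := dist (x (j - 1)) (x (j + 1)) with hd
    set a := dist (x (j - 1)) (x j) with ha
    set b := dist (x j) (x (j + 1)) with hb
    have htri : d ≤ a + b := dist_triangle _ _ _
    have ha0 : 0 ≤ a := dist_nonneg
    have hb0 : 0 ≤ b := dist_nonneg
    have hd0 : 0 ≤ d := dist_nonneg
    have hd2 : d ^ 2 ≤ (a + b) ^ 2 := by gcongr
    have hEy : energy y ≤ energy x := by
      rw [hE]; nlinarith only [sq_nonneg (a - b), hd2]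
    have haρ : a ≤ ρ := by
      have := hst (j - 1)
      rwa [sub_add_cancel] at this
    have hbρ : b ≤ ρ := hst j
    have hyA : y ∈ A := by
      refine ⟨hEy.trans hxA.1, hxA.2.trans (hconj x y hxA.1 (hEy.trans hxA.1) fun i => ?_)⟩
      by_cases hij : i = j
      · subst hij
        rw [hy, Function.update_self]
        have h1 := dist_triangle (x i) (x (i + 1)) m
        rw [dist_comm (x (i + 1)) m, hm2] at h1
        rw [← hb] at h1
        linarith only [hρ, hρr, htri, haρ, hbρ, h1]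
      · rw [hy, Function.update_of_ne hij, dist_self]; linarith only [hρ, hρr]
    have hle : energy x ≤ energy y := hmin hyA
    rw [hE] at hle
    have h1 : a ^ 2 + b ^ 2 ≤ d ^ 2 / 2 := by nlinarith only [hle]
    have h2 : (a - b) ^ 2 ≤ 0 := by nlinarith only [hd2, hle]
    have h3 : a = b := by
      have : a - b = 0 := by
        apply pow_eq_zero_iff (two_ne_zero) |>.1
        exact le_antisymm h2 (sq_nonneg _)
      linarith only [this]
    refine ⟨h3, ?_⟩
    apply le_antisymm htri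
    apply abs_le_of_sq_le_sq' _ hd0 |>.2
    nlinarith
  have hconst : ∀ k : ℕ, dist (x (k : ZMod N)) (x (k + 1)) = dist (x 0) (x 1) := by
    intro k
    induction k with
    | zero => simp
    | succ k ih =>
      have := (corner (k + 1)).1
      rw [add_sub_cancel_right] at this
      push_cast
      rw [← this, ih]
  have hconst' : ∀ i : ZMod N, dist (x i) (x (i + 1)) = dist (x 0) (x 1) := by
    intro i
    have := hconst i.val
    simpa using this
  refine ⟨N, inferInstance, x, dist (x 0) (x 1), ?_, ?_, hconst', ?_, hxA.2⟩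
  · rw [dist_pos]
    intro h01
    apply hg
    have hx1 : ∀ i : ZMod N, x (i + 1) = x i := by
      intro i
      have := hconst' i
      rw [h01, dist_self, dist_eq_zero] at this
      exact this.symm
    have hP : ∀ k : ℕ, S.P (fun i : ℕ => x i) k = 1 := by
      intro k
      induction k with
      | zero => rfl
      | succ k ih =>
        rw [S.P_succ, ih]
        push_cast
        rw [hx1, S.self_eq, one_mul]
    have := hxA.2
    rw [hP N] at this
    exact isConj_one_left.1 this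
  · have := hst 0
    simpa using this
  · intro i
    have h1 := corner i
    rw [h1.2, ← h1.1]
    have := hconst' (i - 1)
    rw [sub_add_cancel] at this
    rw [this]; ring

/-- Main existence theorem: a nontrivial class contains a closed unit speed geodesic. -/
theorem exists_closed_geodesic [CompactSpace M] (hM : HasSegments M) {g : Γ} (hg : g ≠ 1) {n : ℕ}
    {E : ℝ} (hn : 0 < n) (h : S.HasChain g n E) {δ : ℝ} (hδ : 0 < δ) (hδr : 3 * δ < S.r) :
    ∃ (c : ℝ → M) (τ : ℝ) (f : ℝ → Γ), 0 < τ ∧ Function.Periodic c τ ∧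
      IsGeodesicWithSpeed c 1 ∧ f 0 = 1 ∧ S.IsLift c δ f ∧ IsConj g (f τ) := by
  obtain ⟨N, _, x, a, ha, haρ, hx1, hx2, hx3⟩ := exists_straight_chain S hM hg hn h
    (ρ := δ / 16) (by positivity) (by linarith only [S.r_pos, hδ, hδr])
  have hN : (0 : ℝ) < N := by exact_mod_cast Nat.pos_of_ne_zero (NeZero.ne N)
  choose γ hγ0 hγ1 hγ using fun i : ZMod N => hM (x i) (x (i + 1))
  simp only [hx1] at hγ1 hγ
  let c : ℝ → M := fun t => γ (⌊t / a⌋ : ℤ) (t - ⌊t / a⌋ * a)
  -- on each interval, the curve is given by the segment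
  have hc : ∀ (i : ℤ) (t : ℝ), i * a ≤ t → t ≤ (i + 1) * a → c t = γ i (t - i * a) := by
    intro i t h1 h2
    rcases h2.eq_or_lt with h2 | h2
    · have e : t / a = ((i + 1 : ℤ) : ℝ) := by rw [h2]; push_cast; field_simp
      have e' : ⌊t / a⌋ = i + 1 := by rw [e, Int.floor_intCast]
      simp only [c, e']
      rw [h2]
      have z : (i + 1 : ℝ) * a - ((i + 1 : ℤ) : ℝ) * a = 0 := by push_cast; ring
      have z' : (i + 1 : ℝ) * a - i * a = a := by ring
      rw [z, z', hγ0, hγ1]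
      push_cast; rfl
    · have e' : ⌊t / a⌋ = i := by
        rw [Int.floor_eq_iff]
        constructor
        · rwa [le_div_iff₀ ha]
        · rwa [div_lt_iff₀ ha]
      simp only [c, e']
  have hcx : ∀ i : ℤ, c (i * a) = x i := by
    intro i
    rw [hc i _ le_rfl (by nlinarith only [ha]), sub_self, hγ0]
  -- the curve is minimising on pairs of consecutive intervals
  have single : ∀ (i : ℤ) (s t : ℝ), i * a ≤ s → s ≤ t → t ≤ (i + 1) * a →
      dist (c s) (c t) = t - s := by
    intro i s t h1 h2 h3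
    rw [hc i s h1 (by linarith only [h2, h3]), hc i t (by linarith) h3, hγ i _ ⟨by linarith, by nlinarith only [h2, h3]⟩ _
      ⟨by linarith only [h1, h2], by nlinarith only [h3]⟩]
    rw [abs_sub_comm, abs_of_nonneg (by linarith only [h2])]
    ring
  have double : ∀ (i : ℤ) (s t : ℝ), (i - 1) * a ≤ s → s ≤ t → t ≤ (i + 1) * a →
      dist (c s) (c t) = t - s := by
    intro i s t h1 h2 h3
    rcases le_total t (i * a) with h4 | h4
    · have := single (i - 1) s t (by push_cast; linarith only [h1]) h2 (by push_cast; linarith only [h4])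
      exact this
    rcases le_total (i * a) s with h5 | h5
    · exact single i s t h5 h2 h3
    · have e1 := single (i - 1) s (i * a) (by push_cast; linarith only [h1]) h5 (by push_cast; linarith only [])
      have e2 := single i (i * a) t le_rfl h4 h3
      have e3 := single (i - 1) ((i - 1) * a) s (by push_cast; linarith only []) h1
        (by push_cast; linarith)
      have e4 := single i t ((i + 1) * a) h4 h3 le_rfl
      have e5 : dist (c ((i - 1) * a)) (c ((i + 1) * a)) = 2 * a := by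
        have q1 := hcx (i - 1)
        have q2 := hcx (i + 1)
        push_cast at q1 q2
        rw [q1, q2]
        exact hx2 i
      apply le_antisymm
      · linarith only [dist_triangle (c s) (c (i * a)) (c t), e1, e2]
      · have q1 := dist_triangle (c ((i - 1) * a)) (c s) (c ((i + 1) * a))
        have q2 := dist_triangle (c s) (c t) (c ((i + 1) * a))
        linarith only [e3, e4, e5, q1, q2]
  have hgeo : IsGeodesicWithSpeed c 1 := by
    intro t
    refine ⟨a / 2, by positivity, fun s s' hs hs' => ?_⟩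
    set i : ℤ := round (t / a) with hi
    have h1 : |t / a - i| ≤ 1 / 2 := abs_sub_round _
    have h2 : |t - i * a| ≤ a / 2 := by
      have : t - i * a = (t / a - i) * a := by field_simp
      rw [this, abs_mul, abs_of_pos ha]
      nlinarith only [ha, h1]
    rw [abs_le] at h2
    rw [abs_lt] at hs hs'
    rw [one_mul]
    rcases le_total s s' with hss | hss
    · rw [double i s s' (by linarith only [hs, h2]) hss (by linarith only [hs', h2]), abs_sub_comm, abs_of_nonneg (by linarith only [hss])]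
    · rw [dist_comm, double i s' s (by linarith only [hs', h2]) hss (by linarith only [hs, h2]), abs_of_nonneg (by linarith only [hss])]
  have hlip : ∀ s t, dist (c s) (c t) ≤ |s - t| := by
    intro s t; simpa using hgeo.dist_le s t
  obtain ⟨f, hf0, hf⟩ := S.exists_lift hlip hδ hδr
  have hfP : ∀ k : ℕ, f (k * a) = S.P (fun i : ℕ => x i) k := by
    intro k
    induction k with
    | zero => simpa using hf0
    | succ k ih =>
      have := hf (k * a) (((k + 1 : ℕ) : ℝ) * a) (by
        push_cast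
        rw [abs_sub_comm, show ((k : ℝ) + 1) * a - k * a = a by ring, abs_of_pos ha]
        linarith only [ha, haρ])
      rw [S.P_succ, ← ih]
      have q1 := hcx k
      have q2 := hcx (k + 1)
      push_cast at q1 q2 this ⊢
      rw [q1, q2] at this
      rw [← this]; group
  refine ⟨c, N * a, f, by positivity, ?_, hgeo, hf0, hf, ?_⟩
  · intro t
    have e : (t + N * a) / a = t / a + (N : ℕ) := by field_simp
    have e' : ⌊(t + N * a) / a⌋ = ⌊t / a⌋ + N := by rw [e, Int.floor_add_natCast]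
    simp only [c, e']
    have e1 : (((⌊t / a⌋ + N : ℤ)) : ZMod N) = (⌊t / a⌋ : ZMod N) := by simp
    rw [e1]
    congr 1
    push_cast; ring
  · rw [hfP N]
    exact hx3

end Discrete

end Vale.Agent.P216
end
end

section

section

/-!
Closed geodesics with the same image; finitely many images force the group to be a finite union
of conjugates of cyclic subgroups.
-/

namespace Vale.Agent.P216

open Set

/-- Unit speed geodesics which agree on an interval agree everywhere. -/
def NonBranching (M : Type*) [MetricSpace M] : Prop :=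
  ∀ c c' : ℝ → M, IsGeodesicWithSpeed c 1 → IsGeodesicWithSpeed c' 1 →
    ∀ a b : ℝ, a < b → (∀ t ∈ Ioo a b, c t = c' t) → c = c'

/-- A group which is a finite union of conjugates of cyclic subgroups. -/
def FinitelyCyclicallyCovered (Γ : Type*) [Group Γ] : Prop :=
  ∃ F : Set Γ, F.Finite ∧ ∀ g : Γ, ∃ a ∈ F, ∃ k : ℤ, IsConj g (a ^ k)

variable {M : Type*} [MetricSpace M]

lemma IsGeodesicWithSpeed.comp_affine {c : ℝ → M} (h : IsGeodesicWithSpeed c 1) {e : ℝ}
    (he : e = 1 ∨ e = -1) (b : ℝ) : IsGeodesicWithSpeed (fun t => c (e * t + b)) 1 := by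
  intro t
  obtain ⟨ε, hε, H⟩ := h (e * t + b)
  have habs : |e| = 1 := by rcases he with rfl | rfl <;> simp
  have h1 : ∀ s u : ℝ, |e * s + b - (e * u + b)| = |s - u| := by
    intro s u
    rw [show e * s + b - (e * u + b) = e * (s - u) by ring, abs_mul, habs, one_mul]
  refine ⟨ε, hε, fun s s' hs hs' => ?_⟩
  rw [H (e * s + b) (e * s' + b) (by rwa [h1]) (by rwa [h1]), h1]

lemma isometry_interval {θ : ℝ → ℝ} {a b : ℝ} (hab : a < b)
    (h : ∀ s ∈ Ioo a b, ∀ t ∈ Ioo a b, |θ s - θ t| = |s - t|) :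
    ∃ e : ℝ, (e = 1 ∨ e = -1) ∧ ∃ β : ℝ, ∀ t ∈ Ioo a b, θ t = e * t + β := by
  obtain ⟨t1, ht1a, ht1b⟩ := exists_between hab
  obtain ⟨t2, ht2a, ht2b⟩ := exists_between ht1b
  have m1 : t1 ∈ Ioo a b := ⟨ht1a, ht1b⟩
  have m2 : t2 ∈ Ioo a b := ⟨ht1a.trans ht2a, ht2b⟩
  have h12 := h t2 m2 t1 m1
  rw [abs_of_pos (show 0 < t2 - t1 by linarith)] at h12
  have hD : 0 < t2 - t1 := by linarith
  have hsq : ∀ s ∈ Ioo a b, ∀ t ∈ Ioo a b, (θ s - θ t) ^ 2 = (s - t) ^ 2 := by
    intro s hs t ht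
    rw [← sq_abs, h s hs t ht, sq_abs]
  rcases abs_eq (hD.le) |>.1 h12 with h3 | h3
  · refine ⟨1, Or.inl rfl, θ t1 - t1, fun t ht => ?_⟩
    have e1 := hsq t ht t1 m1
    have e2 := hsq t ht t2 m2
    have e3 : θ t2 = θ t1 + (t2 - t1) := by linarith
    rw [e3] at e2
    have e4 : (t2 - t1) * ((θ t - θ t1) - (t - t1)) = 0 := by nlinarith only [e1, e2]
    have e5 := (mul_eq_zero.1 e4).resolve_left hD.ne'
    linarith
  · refine ⟨-1, Or.inr rfl, θ t1 + t1, fun t ht => ?_⟩
    have e1 := hsq t ht t1 m1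
    have e2 := hsq t ht t2 m2
    have e3 : θ t2 = θ t1 - (t2 - t1) := by linarith
    rw [e3] at e2
    have e4 : (t2 - t1) * ((θ t - θ t1) + (t - t1)) = 0 := by nlinarith only [e1, e2]
    have e5 := (mul_eq_zero.1 e4).resolve_left hD.ne'
    linarith only [e5]

/-- A unit speed geodesic whose image is contained in the image of another one is a
reparametrisation of it. -/
theorem eq_comp_of_range_subset (hNB : NonBranching M) {c c' : ℝ → M}
    (hc : IsGeodesicWithSpeed c 1) (hc' : IsGeodesicWithSpeed c' 1)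
    (hr : range c ⊆ range c') :
    ∃ e : ℝ, (e = 1 ∨ e = -1) ∧ ∃ β : ℝ, ∀ t, c t = c' (e * t + β) := by
  let Iso : ℚ × ℚ → Prop := fun p => ∀ s ∈ Icc (p.1 : ℝ) p.2, ∀ t ∈ Icc (p.1 : ℝ) p.2,
    dist (c' s) (c' t) = |s - t|
  let F : {p : ℚ × ℚ // Iso p} → Set ℝ := fun p => c ⁻¹' (c' '' Icc (p.1.1 : ℝ) p.1.2)
  have Fcl : ∀ p, IsClosed (F p) := fun p =>
    ((isCompact_Icc.image hc'.continuous).isClosed).preimage hc.continuous
  have Funion : ⋃ p, F p = univ := by
    rw [eq_univ_iff_forall]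
    intro t
    obtain ⟨s, hs⟩ := hr (mem_range_self t)
    obtain ⟨ε, hε, H⟩ := hc' s
    obtain ⟨p, hp1, hp2⟩ := exists_rat_btwn (show s - ε < s by linarith)
    obtain ⟨q, hq1, hq2⟩ := exists_rat_btwn (show s < s + ε by linarith)
    rw [mem_iUnion]
    refine ⟨⟨(p, q), ?_⟩, s, ⟨hp2.le, hq1.le⟩, hs⟩
    intro u hu v hv
    simp only [mem_Icc] at hu hv
    rw [H u v (by rw [abs_lt]; constructor <;> linarith) (by rw [abs_lt]; constructor <;> linarith),
      one_mul]
  obtain ⟨p, hp⟩ := nonempty_interior_of_iUnion_of_closed Fcl Funion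
  obtain ⟨t0, ht0⟩ := hp
  obtain ⟨ε1, hε1, h1⟩ := Metric.mem_nhds_iff.1 (mem_interior_iff_mem_nhds.1 ht0)
  obtain ⟨ε2, hε2, h2⟩ := hc t0
  set ε := min ε1 ε2 with hε
  have hε0 : 0 < ε := lt_min hε1 hε2
  have key : ∀ t ∈ Ioo (t0 - ε) (t0 + ε), ∃ θ ∈ Icc (p.1.1 : ℝ) p.1.2, c' θ = c t := by
    intro t ht
    have : t ∈ F p := by
      apply h1
      rw [Metric.mem_ball, Real.dist_eq, abs_lt]
      constructor <;> linarith [ht.1, ht.2, min_le_left ε1 ε2]
    exact this
  choose! θ hθ1 hθ2 using key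
  have hiso : ∀ s ∈ Ioo (t0 - ε) (t0 + ε), ∀ t ∈ Ioo (t0 - ε) (t0 + ε),
      |θ s - θ t| = |s - t| := by
    intro s hs t ht
    rw [← p.2 _ (hθ1 s hs) _ (hθ1 t ht), hθ2 s hs, hθ2 t ht]
    have := h2 s t (by rw [abs_lt]; constructor <;> linarith [hs.1, hs.2, min_le_right ε1 ε2])
      (by rw [abs_lt]; constructor <;> linarith [ht.1, ht.2, min_le_right ε1 ε2])
    rw [this, one_mul]
  obtain ⟨e, he, β, hβ⟩ := isometry_interval (by linarith) hiso
  refine ⟨e, he, β, fun t => ?_⟩
  have := hNB c (fun t => c' (e * t + β)) hc (hc'.comp_affine he β) (t0 - ε) (t0 + ε)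
    (by linarith) (fun t ht => by rw [← hθ2 t ht, hβ t ht])
  exact congrFun this t

/-- The periods of a periodic unit speed geodesic form an infinite cyclic group. -/
lemma exists_generator_periods {c : ℝ → M} {v : ℝ} (hv : 0 < v) (hc : IsGeodesicWithSpeed c v)
    {τ : ℝ} (hτ : 0 < τ) (hper : Function.Periodic c τ) :
    ∃ τ₀ : ℝ, 0 < τ₀ ∧ Function.Periodic c τ₀ ∧
      ∀ p, Function.Periodic c p → ∃ k : ℤ, p = k * τ₀ := by
  let G : AddSubgroup ℝ :=
    { carrier := {p | Function.Periodic c p}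
      zero_mem' := fun x => by simp
      add_mem' := fun {a b} ha hb => Function.Periodic.add_period ha hb
      neg_mem' := fun {a} ha => Function.Periodic.neg ha }
  have hG : ∀ p, p ∈ G ↔ Function.Periodic c p := fun p => Iff.rfl
  rcases G.dense_or_cyclic with hd | ⟨a, ha⟩
  · exfalso
    have hconst : ∀ t, c t = c 0 := by
      have hcl : IsClosed {t | c t = c 0} := isClosed_eq hc.continuous continuous_const
      intro t
      have h1 : closure (G : Set ℝ) ⊆ {t | c t = c 0} := by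
        apply closure_minimal _ hcl
        intro p hp
        have := (hG p).1 hp 0
        simpa using this
      exact h1 (hd t)
    obtain ⟨ε, hε, H⟩ := hc 0
    have := H 0 (ε / 2) (by simpa using hε) (by
      rw [sub_zero, abs_of_pos (by positivity)]; linarith)
    rw [hconst (ε / 2), dist_self, zero_sub, abs_neg, abs_of_pos (by positivity)] at this
    have : 0 < v * (ε / 2) := by positivity
    linarith
  · have hmem : ∀ p, Function.Periodic c p ↔ ∃ k : ℤ, k • a = p := by
      intro p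
      rw [← hG, ha, AddSubgroup.mem_closure_singleton]
    have ha0 : a ≠ 0 := by
      rintro rfl
      obtain ⟨k, hk⟩ := (hmem τ).1 hper
      simp at hk
      linarith
    refine ⟨|a|, abs_pos.2 ha0, ?_, ?_⟩
    · rcases abs_choice a with h | h
      · rw [h]; exact (hmem a).2 ⟨1, by simp⟩
      · rw [h]; exact (hmem (-a)).2 ⟨-1, by simp⟩
    · intro p hp
      obtain ⟨k, hk⟩ := (hmem p).1 hp
      rcases abs_choice a with h | h
      · exact ⟨k, by rw [h, ← hk]; simp⟩
      · exact ⟨-k, by rw [h, ← hk]; simp⟩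

lemma IsGeodesicWithSpeed.normalize {c : ℝ → M} {v : ℝ} (hv : 0 < v)
    (hc : IsGeodesicWithSpeed c v) : IsGeodesicWithSpeed (fun t => c (t / v)) 1 := by
  intro t
  obtain ⟨ε, hε, H⟩ := hc (t / v)
  refine ⟨v * ε, by positivity, fun s s' hs hs' => ?_⟩
  have h1 : ∀ s u : ℝ, |s / v - u / v| = |s - u| / v := by
    intro s u; rw [← sub_div, abs_div, abs_of_pos hv]
  rw [H (s / v) (s' / v) (by rw [h1, div_lt_iff₀ hv]; linarith)
    (by rw [h1, div_lt_iff₀ hv]; linarith), h1]
  field_simp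

lemma range_mem_images {c : ℝ → M} (hc : IsGeodesicWithSpeed c 1)
    {τ : ℝ} (hτ : 0 < τ) (hper : Function.Periodic c τ) :
    range c ∈ primeClosedGeodesicImages M := by
  obtain ⟨τ₀, h0, h1, h2⟩ := exists_generator_periods one_pos hc hτ hper
  refine ⟨c, τ₀, ⟨⟨1, one_pos, hc⟩, h0, h1, ?_⟩, rfl⟩
  intro τ' hτ' hlt hp
  obtain ⟨k, hk⟩ := h2 τ' hp
  have hk0 : (0 : ℝ) < k := by
    by_contra hcon
    push Not at hcon
    nlinarith only [hτ', hk, h0, hcon]
  have hk1 : (1 : ℝ) ≤ k := by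
    have : (0 : ℤ) < k := by exact_mod_cast hk0
    exact_mod_cast this
  nlinarith only [hlt, hk, h0, hk1]

/-- Finitely many images of closed geodesics: the group is a finite union of conjugates of
cyclic subgroups. -/
theorem finitelyCyclicallyCovered_of_finite [CompactSpace M] {Γ : Type*} [Group Γ]
    (hM : HasSegments M) (hNB : NonBranching M) (S : LocalCocycle M Γ)
    (hgen : ∀ g : Γ, ∃ (n : ℕ) (E : ℝ), 0 < n ∧ S.HasChain g n E)
    (hfin : (primeClosedGeodesicImages M).Finite) : FinitelyCyclicallyCovered Γ := by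
  set δ := S.r / 4 with hδ
  have hr := S.r_pos
  have hδ0 : 0 < δ := by positivity
  -- a representative for every image
  have hrep : ∀ A : primeClosedGeodesicImages M, ∃ (c : ℝ → M) (τ₀ : ℝ) (f : ℝ → Γ),
      IsGeodesicWithSpeed c 1 ∧ Function.Periodic c τ₀ ∧ (A : Set M) = range c ∧
      (∀ p, Function.Periodic c p → ∃ k : ℤ, p = k * τ₀) ∧ f 0 = 1 ∧ S.IsLift c δ f := by
    rintro ⟨A, c, τ, ⟨⟨v, hv, hc⟩, hτ, hper, -⟩, rfl⟩
    have h1 := hc.normalize hv
    have hper' : Function.Periodic (fun t => c (t / v)) (τ * v) := by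
      intro t
      have : (t + τ * v) / v = t / v + τ := by field_simp
      simp only [this]
      exact hper _
    obtain ⟨τ₀, h2, h3, h4⟩ := exists_generator_periods one_pos h1
      (by positivity : 0 < τ * v) hper'
    obtain ⟨f, hf0, hf⟩ := S.exists_lift (c := fun t => c (t / v))
      (fun s t => by simpa using h1.dist_le s t) hδ0 (by linarith only [hδ, hδ0])
    refine ⟨fun t => c (t / v), τ₀, f, h1, h3, ?_, h4, hf0, hf⟩
    ext x
    constructor
    · rintro ⟨t, rfl⟩
      exact ⟨t * v, by simp only; congr 1; field_simp⟩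
    · rintro ⟨t, rfl⟩
      exact ⟨t / v, rfl⟩
  choose C T F hC hT hA hP hF0 hF using hrep
  have hfin' : Finite (primeClosedGeodesicImages M) := hfin.to_subtype
  refine ⟨insert 1 (range fun A => F A (T A)), (finite_range _).insert 1, fun g => ?_⟩
  by_cases hg : g = 1
  · exact ⟨1, mem_insert _ _, 0, by rw [hg]; simp⟩
  obtain ⟨n, E, hn, hch⟩ := hgen g
  obtain ⟨c, τ, f, hτ, hper, hc, hf0, hf, hconj⟩ := exists_closed_geodesic S hM hg hn hch hδ0
    (by linarith only [hδ, hδ0])
  have hmem := range_mem_images hc hτ hper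
  set A : primeClosedGeodesicImages M := ⟨range c, hmem⟩ with hAdef
  refine ⟨F A (T A), mem_insert_of_mem _ (mem_range_self A), ?_⟩
  obtain ⟨e, he, β, hβ⟩ := eq_comp_of_range_subset hNB hc (hC A) (hA A).subset
  have he2 : e * e = 1 := by rcases he with rfl | rfl <;> norm_num
  have heabs : |e| = 1 := by rcases he with rfl | rfl <;> simp
  -- the lift of `c` in terms of the lift of the representative
  have hl : S.IsLift c δ (fun t => F A (e * t + β)) := by
    intro s t hst
    rw [hβ s, hβ t]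
    apply hF A
    rwa [show e * s + β - (e * t + β) = e * (s - t) by ring, abs_mul, heabs, one_mul]
  have hfl := hl.unique S hδ0 hf τ
  rw [hf0, mul_zero, zero_add] at hfl
  have hpe : Function.Periodic (C A) (e * τ) := by
    intro s
    have h1 := hper (e * (s - β))
    rw [hβ, hβ] at h1
    have e1 : e * (e * (s - β) + τ) + β = s + e * τ := by
      have : e * (e * (s - β) + τ) + β = (e * e) * (s - β) + e * τ + β := by ring
      rw [this, he2]; ring
    have e2 : e * (e * (s - β)) + β = s := by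
      have : e * (e * (s - β)) + β = (e * e) * (s - β) + β := by ring
      rw [this, he2]; ring
    rwa [e1, e2] at h1
  obtain ⟨k, hk⟩ := hP A _ hpe
  refine ⟨k, hconj.trans ?_⟩
  have h3 := (hF A).periodic_zsmul S hδ0 (hF0 A) (hT A) k β
  rw [hfl, add_comm (e * τ) β, hk, h3, isConj_iff]
  exact ⟨F A β, by group⟩

end Vale.Agent.P216
end
end

section

section

/-!
Groups which are finite unions of conjugates of cyclic subgroups.
-/

namespace Vale.Agent.P216

open Set

/-- The property passes to subgroups of finite index. -/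
theorem FinitelyCyclicallyCovered.subgroup {Γ : Type*} [Group Γ]
    (h : FinitelyCyclicallyCovered Γ) (H : Subgroup Γ) [H.FiniteIndex] :
    FinitelyCyclicallyCovered H := by
  obtain ⟨F, hF, hcov⟩ := h
  -- a generator of the intersection of `H` with a cyclic group
  have gen : ∀ b : Γ, ∃ c : H, ∀ k : ℤ, ∀ hk : b ^ k ∈ H, ∃ j : ℤ, (⟨b ^ k, hk⟩ : H) = c ^ j := by
    intro b
    let f : Multiplicative ℤ →* Γ := zpowersHom Γ b
    have hf : ∀ k : ℤ, f (Multiplicative.ofAdd k) = b ^ k := fun k => by simp [f]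
    let L : AddSubgroup ℤ := Subgroup.toAddSubgroup' (H.comap f)
    obtain ⟨m, hm⟩ := Int.subgroup_cyclic L
    have hmem : ∀ k : ℤ, k ∈ L ↔ b ^ k ∈ H := by
      intro k
      have : k ∈ L ↔ f (Multiplicative.ofAdd k) ∈ H := Iff.rfl
      rw [this, hf]
    have hmL : m ∈ L := by rw [hm]; exact AddSubgroup.mem_closure_singleton_self m
    refine ⟨⟨b ^ m, (hmem m).1 hmL⟩, fun k hk => ?_⟩
    have : k ∈ L := (hmem k).2 hk
    rw [hm, AddSubgroup.mem_closure_singleton] at this
    obtain ⟨j, hj⟩ := this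
    refine ⟨j, ?_⟩
    ext
    simp only [Subgroup.coe_zpow]
    rw [← hj, smul_eq_mul, mul_comm, zpow_mul]
  choose c hc using gen
  -- coset representatives
  have hfinq : Finite (Γ ⧸ H) := inferInstance
  refine ⟨(fun p : (Γ ⧸ H) × Γ => c ((Quotient.out p.1)⁻¹ * p.2 * Quotient.out p.1)) ''
    (univ ×ˢ F), (finite_univ.prod hF).image _, fun g => ?_⟩
  obtain ⟨a, ha, k, hk⟩ := hcov g
  rw [isConj_iff] at hk
  obtain ⟨u, hu⟩ := hk
  -- `a ^ k = u g u⁻¹`, so `g = u⁻¹ a ^ k u`; write `u = out * h`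
  set x : Γ := Quotient.out (u : Γ ⧸ H) with hx
  obtain ⟨h0, hh0⟩ := QuotientGroup.mk_out_eq_mul H u
  have hxu : x = u * h0 := hh0
  refine ⟨_, ⟨((u : Γ ⧸ H), a), ⟨mem_univ _, ha⟩, rfl⟩, ?_⟩
  simp only [← hx]
  have hb : (x⁻¹ * a * x) ^ k = (h0 : Γ)⁻¹ * g * h0 := by
    have e1 : (x⁻¹ * a * x) ^ k = x⁻¹ * a ^ k * x := by
      have := conj_zpow (i := k) (a := x⁻¹) (b := a)
      simpa using this
    rw [e1, ← hu, hxu]
    group
  have hmem : (x⁻¹ * a * x) ^ k ∈ H := by
    rw [hb]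
    exact H.mul_mem (H.mul_mem (H.inv_mem h0.2) g.2) h0.2
  obtain ⟨j, hj⟩ := hc (x⁻¹ * a * x) k hmem
  refine ⟨j, ?_⟩
  rw [← hj, isConj_iff]
  refine ⟨h0⁻¹, ?_⟩
  ext
  simp [hb]

end Vale.Agent.P216
end
end

section

section

/-!
Finitely many closed geodesics: consequences for the fundamental group.
-/

open Set Filter Topology Bundle Manifold
open scoped ContDiff

namespace Vale.Agent.P216

section

variable {E : Type*} [NormedAddCommGroup E] [NormedSpace ℝ E] [FiniteDimensional ℝ E]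
  {M : Type*} [MetricSpace M] [ChartedSpace E M] [IsManifold 𝓘(ℝ, E) ∞ M]
  [RiemannianBundle (fun (x : M) ↦ TangentSpace 𝓘(ℝ, E) x)]
  [IsContMDiffRiemannianBundle 𝓘(ℝ, E) ∞ E (fun (x : M) ↦ TangentSpace 𝓘(ℝ, E) x)]
  [IsRiemannianManifold 𝓘(ℝ, E) M]

variable (E M) in
include E in
theorem nonBranching_of_riemannian : NonBranching M := by
  intro c c' hc hc' a b hab h
  have conv : ∀ c : ℝ → M, IsGeodesicWithSpeed c 1 → LocMin c 1 := by
    intro c hc t
    obtain ⟨ε, hε, H⟩ := hc t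
    exact ⟨ε, hε, fun s s' hs hs' => H s s' hs hs'⟩
  refine unique_continuation E one_pos (conv c hc) (conv c' hc') ⟨(a + b) / 2, ?_⟩
  have : Ioo a b ∈ 𝓝 ((a + b) / 2) := Ioo_mem_nhds (by linarith only [hab]) (by linarith only [hab])
  filter_upwards [this] with t ht using h t ht

variable (E M) in
include E in
/-- If a compact Riemannian manifold has only finitely many closed geodesics, its fundamental
group is a finite union of conjugates of cyclic subgroups. -/
theorem finitelyCyclicallyCovered_fundamentalGroup [CompactSpace M] (x₀ : M)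
    (hfin : (primeClosedGeodesicImages M).Finite) :
    FinitelyCyclicallyCovered (FundamentalGroup M x₀) := by
  have hM := hasSegments_of_riemannian 𝓘(ℝ, E) M
  obtain ⟨r₀, hr₀, hS⟩ := exists_smallPathsHomotopic E M
  obtain ⟨S, hgen⟩ := exists_cocycle hM hr₀ hS x₀
  exact finitelyCyclicallyCovered_of_finite hM (nonBranching_of_riemannian E M) S hgen hfin

end

end Vale.Agent.P216
end
end

section

section

/-!
More obstructions for a group to be a finite union of conjugates of cyclic subgroups.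
-/

namespace Vale.Agent.P216

open Set

/-- Length functions: if `τ` is a conjugation invariant homogeneous function with
`τ (g ^ m * h) = m * τ g` for all `m ≥ 1` and `τ g > 0`, and the group is a finite union of
conjugates of cyclic subgroups, then `h` dies in every finite quotient. -/
theorem FinitelyCyclicallyCovered.length_apply_eq_one {Γ : Type*} [Group Γ]
    (H : FinitelyCyclicallyCovered Γ) (τ : Γ → ℝ) (hconj : ∀ x y, τ (x * y * x⁻¹) = τ y)
    (hpow : ∀ x (n : ℤ), τ (x ^ n) = |(n : ℝ)| * τ x) {g h : Γ} (hg : 0 < τ g)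
    (hgh : ∀ m : ℕ, 0 < m → τ (g ^ m * h) = m * τ g)
    {G : Type*} [Group G] [Finite G] (q : Γ →* G) : q h = 1 := by
  classical
  obtain ⟨F, hF, hcov⟩ := H
  have fconj : ∀ a b, IsConj a b → τ a = τ b := by
    intro a b hab
    obtain ⟨u, rfl⟩ := isConj_iff.1 hab
    exact (hconj u a).symm
  -- denominators of the rational ratios
  have hden : ∀ a : Γ, ∃ b : ℕ, 0 < b ∧ ∀ (m k : ℤ), 0 < m → (m : ℝ) * τ g = |(k : ℝ)| * τ a →
      ∃ w : ℤ, (b : ℝ) * τ g = w * τ a := by
    intro a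
    by_cases hex : ∃ (m : ℕ) (k : ℤ), 0 < m ∧ (m : ℝ) * τ g = k * τ a
    · obtain ⟨m, k, hm, hk⟩ := hex
      exact ⟨m, hm, fun _ _ _ _ => ⟨k, hk⟩⟩
    · refine ⟨1, one_pos, fun m k hm hk => ?_⟩
      exfalso
      apply hex
      refine ⟨m.toNat, |k|, by omega, ?_⟩
      have : ((m.toNat : ℕ) : ℝ) = m := by
        have h1 : ((m.toNat : ℕ) : ℤ) = m := Int.toNat_of_nonneg hm.le
        exact_mod_cast congrArg (fun z : ℤ => (z : ℝ)) h1
      rw [this, hk]
      push_cast
      ring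
  choose b hb0 hb using hden
  set e : ℕ := Nat.card G with he
  have he0 : 0 < e := Nat.card_pos
  set B : ℕ := ∏ a ∈ hF.toFinset, b a with hB
  have hB0 : 0 < B := Finset.prod_pos (fun a _ => hb0 a)
  have hone : ∀ y : G, y ^ e = 1 := fun y => pow_card_eq_one'
  obtain ⟨a, ha, k, hk⟩ := hcov (g ^ (e * B) * h)
  have h1 := fconj _ _ hk
  rw [hgh _ (Nat.mul_pos he0 hB0), hpow] at h1
  obtain ⟨w, hw⟩ := hb a ((e * B : ℕ) : ℤ) k (by exact_mod_cast Nat.mul_pos he0 hB0)
    (by exact_mod_cast h1)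
  obtain ⟨c, hc⟩ : b a ∣ B := Finset.dvd_prod_of_mem _ (hF.mem_toFinset.2 ha)
  have hτa : τ a ≠ 0 := by
    intro h0
    rw [h0, mul_zero] at h1
    have : (0 : ℝ) < ((e * B : ℕ) : ℝ) * τ g := by
      have : (0 : ℝ) < ((e * B : ℕ) : ℝ) := by exact_mod_cast Nat.mul_pos he0 hB0
      positivity
    linarith only [h1, this]
  have h2 : |(k : ℝ)| * τ a = ((e : ℤ) * ((c : ℤ) * w) : ℤ) * τ a := by
    rw [← h1, hc]
    push_cast
    calc ((e : ℝ) * (b a * c)) * τ g = (e * c) * (b a * τ g) := by ring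
      _ = (e * (c * w)) * τ a := by rw [hw]; ring
  have h3 : |(k : ℝ)| = ((e : ℤ) * ((c : ℤ) * w) : ℤ) := mul_right_cancel₀ hτa h2
  have h4 : |k| = (e : ℤ) * ((c : ℤ) * w) := by
    have : ((|k| : ℤ) : ℝ) = ((e : ℤ) * ((c : ℤ) * w) : ℤ) := by rw [← h3]; push_cast; ring
    exact_mod_cast this
  have h5 : q (a ^ k) = 1 := by
    have : (e : ℤ) ∣ k := by rw [← dvd_abs, h4]; exact Dvd.intro _ rfl
    obtain ⟨u, hu⟩ := this
    rw [map_zpow, hu, zpow_mul, zpow_natCast, hone, one_zpow]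
  have h6 : q (g ^ (e * B) * h) = q h := by
    rw [map_mul, map_pow, pow_mul, hone, one_pow, one_mul]
  obtain ⟨u, hu⟩ := isConj_iff.1 hk
  rw [← h6]
  have h7 : q u * q (g ^ (e * B) * h) * (q u)⁻¹ = 1 := by
    rw [← h5, ← hu]; simp
  have h8 : q (g ^ (e * B) * h) = (q u)⁻¹ * (q u * q (g ^ (e * B) * h) * (q u)⁻¹) * q u := by
    group
  rw [h8, h7]; group

/-- Counting: a group which is a finite union of conjugates of cyclic subgroups has a bound on the
number of cyclic subgroups needed for all its quotients. -/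
theorem FinitelyCyclicallyCovered.exists_bound {Γ : Type*} [Group Γ]
    (H : FinitelyCyclicallyCovered Γ) :
    ∃ r : ℕ, ∀ {G : Type*} [Group G] (q : Γ →* G), Function.Surjective q →
      ∃ a : Fin r → G, ∀ y : G, ∃ (i : Fin r) (k : ℤ), IsConj y (a i ^ k) := by
  obtain ⟨F, hF, hcov⟩ := H
  have := hF.fintype
  refine ⟨Fintype.card F, fun {G} _ q hq => ?_⟩
  let e := Fintype.equivFin F
  refine ⟨fun i => q (e.symm i), fun y => ?_⟩
  obtain ⟨x, rfl⟩ := hq y
  obtain ⟨a, ha, k, hk⟩ := hcov x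
  refine ⟨e ⟨a, ha⟩, k, ?_⟩
  simp only [Equiv.symm_apply_apply]
  rw [← map_zpow]
  exact q.map_isConj hk

end Vale.Agent.P216
end
end
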